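import Vale.Agent.P092.CL.Defs
import Vale.Agent.P092.SPT.Amp

/-!
P092, stages 2 and 3, all amplifications (helper958): the leg `CL.LegP` for a finite family of
vectors, and its amplification `K ⊗ ℂ^Q`, which has one vector (port of helper421's SPT/Amp).
-/

set_option linter.all false

open scoped InnerProductSpace ENNReal ZeroAtInfty
open Filter Topology ContinuousLinearMap MeasureTheory TopologicalSpace

namespace Vale.Agent.P092.CL.T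

open Vale.Agent.P092.H333.Amp
open Vale.Agent.P092.SD (Ms UC MM MsF norm_amp_le norm_le_coord)
open Vale.Agent.P092.RC (Cm TRN Moore TRNF PicF ampH ampH_ap ampW ampO cm_ampW cm_amp
  amp_comm_iff)
open Vale.Agent.P092.H790.CTA (ORBG SIZEG)
open Vale.Agent.P092.H232 (Nin)
open Vale.Agent.P092.SP (UL)
open Vale.Agent.P092.SP.X (ampU ampU_ap ul_amp)
open Vale.Agent.P092.SNT (ORBGF uc_ampG size_ampG orb_ampG)
open Vale.Agent.P092.CL

/-! ### One leg with a family of vectors -/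

section defs

variable {S P M V₁ V₂ : Type} [Group S] [MeasurableSpace V₁] [MeasurableSpace V₂]
  {E Γ K κ : Type} [Group E] [TopologicalSpace E] [Group Γ] [NormedAddCommGroup K]
  [InnerProductSpace ℂ K] [CompleteSpace K] [Fintype κ]

/-- `CL.ORB` for a family of vectors -/
def ORBF {V : Type} [MeasurableSpace V] [NormedAddCommGroup V] (μ : Measure V) (ι : S →* E)
    (π : E →* (K →L[ℂ] K)) (lam : Γ →* (K →L[ℂ] K)) (W : Set (K →L[ℂ] K)) (Ω : κ → K) (b : S)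
    (n : V → S) : Prop :=
  ∃ ρ : ℝ, 0 < ρ ∧ ρ < 1 ∧ ORBGF μ (ι b) (fun s => ι (n s)) ρ π lam W Ω

variable [TopologicalSpace S] [MulAction S P] [TopologicalSpace P] [CompactSpace P]
  [ContinuousConstSMul S P] [MulAction S M] [TopologicalSpace M] [CompactSpace M]
  [ContinuousConstSMul S M] [NormedAddCommGroup V₁] [NormedAddCommGroup V₂]

/-- `CL.PB` for a family of vectors -/
structure PBF (L : Lt S P M V₁ V₂) (𝒰 : Ultrafilter ℕ) (ι : S →* E)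
    (π : E →* (K →L[ℂ] K)) (lam : Γ →* (K →L[ℂ] K)) (W : Set (K →L[ℂ] K)) (Ω : κ → K)
    (m : Set Γ → (K →L[ℂ] K)) (q : Γ → S) : Prop where
  adm : Adm L ι
  h𝒰 : (𝒰 : Filter ℕ) ≤ atTop
  pic : PicF π lam W Ω
  ms : MsF lam W Ω m
  uc : ∀ i, UC π W (Ω i) m
  ph : L.PH q
  fin : ∀ C : ℝ, {γ | L.nm (q γ) ≤ C}.Finite
  ud : L.UD q
  orb1 : ORBF L.μ₁ ι π lam W Ω L.b1 L.u1
  orb2 : ORBF L.μ₂ ι π lam W Ω L.b2 L.u2
  orb2' : ORBF L.μ₁ ι π lam W Ω L.b2 L.u1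
  size1 : ∀ i, SIZEG (ι L.b1) π (Ω i) m fun γ => L.nm (q γ)
  size2 : ∀ i, SIZEG (ι L.b2) π (Ω i) m fun γ => L.nm (q γ)
  prox1 : ∀ (z : P) (D : Set P), IsCompact D → (∀ y ∈ D, L.opp1 y z) →
    ∀ U : Set P, IsOpen U → U.Nonempty → ∃ γ, ∀ y ∈ D, q γ • y ∈ U
  prox2 : ∀ (z : M) (D : Set M), IsCompact D → (∀ y ∈ D, L.opp2 y z) →
    ∀ U : Set M, IsOpen U → U.Nonempty → ∃ γ, ∀ y ∈ D, q γ • y ∈ U
  nis1 : ∀ φ : C(P, ℂ) →ₗ[ℂ] ℂ, (∀ f, 0 ≤ (φ (star f * f)).re) → φ 1 = 1 →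
    (∀ γ, ∀ f f' : C(P, ℂ), (∀ x, f' (q γ • x) = f x) → φ f' = φ f) → False
  nis2 : ∀ φ : C(M, ℂ) →ₗ[ℂ] ℂ, (∀ f, 0 ≤ (φ (star f * f)).re) → φ 1 = 1 →
    (∀ γ, ∀ f f' : C(M, ℂ), (∀ x, f' (q γ • x) = f x) → φ f' = φ f) → False

/-- `CL.LegP` for a family of vectors -/
structure LegPF (L : Lt S P M V₁ V₂) (𝒰 : Ultrafilter ℕ) (ι : S →* E)
    (π : E →* (K →L[ℂ] K)) (lam : Γ →* (K →L[ℂ] K)) (W : Set (K →L[ℂ] K)) (Ω : κ → K)
    (m : Set Γ → (K →L[ℂ] K)) (q : Γ → S)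
    (U11 : P → (C(P, ℂ) →ₗ[ℂ] (K →L[ℂ] K))) (p11 : ℝ)
    (U12 : P → (C(M, ℂ) →ₗ[ℂ] (K →L[ℂ] K))) (p12 : ℝ)
    (U21 : M → (C(P, ℂ) →ₗ[ℂ] (K →L[ℂ] K))) (p21 : ℝ)
    (U22 : M → (C(M, ℂ) →ₗ[ℂ] (K →L[ℂ] K))) (p22 : ℝ) : Prop where
  base : PBF L 𝒰 ι π lam W Ω m q
  u11 : UFam 𝒰 L.b1 L.p0 ι π lam W m q (L.na1 q) U11 p11
  u12 : UFam 𝒰 L.b1 L.p0 ι π lam W m q (L.na2 q) U12 p12
  u21 : UFam 𝒰 L.b2 L.m0 ι π lam W m q (L.na1 q) U21 p21
  u22 : UFam 𝒰 L.b2 L.m0 ι π lam W m q (L.na2 q) U22 p22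
  s1 : p11 + p12 = 1
  s2 : p21 + p22 = 1
  i11 : ∀ c l, L.In c l → ∀ f g, Nin L.In f g → U11 c f * U22 l g = 0
  i12 : ∀ c l, L.In c l → ∀ f g, Nin L.In f g → U21 l f * U12 c g = 0

/-- the data of one leg of a family -/
def HasLegF (L : Lt S P M V₁ V₂) (𝒰 : Ultrafilter ℕ) (ι : S →* E)
    (π : E →* (K →L[ℂ] K)) (lam : Γ →* (K →L[ℂ] K)) (W : Set (K →L[ℂ] K)) (Ω : κ → K)
    (m : Set Γ → (K →L[ℂ] K)) (q : Γ → S) : Prop :=
  ∃ (U11 : P → (C(P, ℂ) →ₗ[ℂ] (K →L[ℂ] K))) (p11 : ℝ)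
    (U12 : P → (C(M, ℂ) →ₗ[ℂ] (K →L[ℂ] K))) (p12 : ℝ)
    (U21 : M → (C(P, ℂ) →ₗ[ℂ] (K →L[ℂ] K))) (p21 : ℝ)
    (U22 : M → (C(M, ℂ) →ₗ[ℂ] (K →L[ℂ] K))) (p22 : ℝ),
    LegPF L 𝒰 ι π lam W Ω m q U11 p11 U12 p12 U21 p21 U22 p22

/-- the near-wall sets grow with the constant -/
structure NAMono (L : Lt S P M V₁ V₂) : Prop where
  n1 : ∀ {R R' : ℝ} (T : ℝ) (A : Set P), R ≤ R' → L.NA1 R T A ⊆ L.NA1 R' T A
  n2 : ∀ {R R' : ℝ} (T : ℝ) (A : Set M), R ≤ R' → L.NA2 R T A ⊆ L.NA2 R' T A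

end defs

/-! ### The amplification -/

section amp

variable {S E Γ K κ Q : Type} [Group S] [TopologicalSpace S]
  [Group E] [TopologicalSpace E] [Group Γ] [NormedAddCommGroup K] [InnerProductSpace ℂ K]
  [CompleteSpace K] [Fintype κ] [Group Q] [Fintype Q]
  {𝒰 : Ultrafilter ℕ} {ι : S →* E} {π : E →* (K →L[ℂ] K)}
  {lam : Γ →* (K →L[ℂ] K)} {W : Set (K →L[ℂ] K)} {Ω : κ → K} {m : Set Γ → (K →L[ℂ] K)}
  {q : Γ → S}

section fam

variable {X Y : Type} [MulAction S X] [TopologicalSpace Y] [CompactSpace Y]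
  [MulAction S Y] [ContinuousConstSMul S Y] {b : S} {v0 : X}
  {NA : ℝ → ℝ → Set Y → Set Γ} {U : X → (C(Y, ℂ) →ₗ[ℂ] (K →L[ℂ] K))} {p : ℝ}

theorem ufam_amp (hm : MsF lam W Ω m) (hN : ∀ R R' T A, R ≤ R' → NA R T A ⊆ NA R' T A)
    (h : UFam 𝒰 b v0 ι π lam W m q NA U p) :
    UFam 𝒰 b v0 ι (ampH Q π) (ampH Q lam) (ampW Q W) (fun S => H333.Amp.amp (Q := Q) (m S)) q NA
      (fun x => ampU Q (U x)) p where
  ul v := ul_amp (h.ul v)
  cm v f := cm_amp (h.cm v f)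
  cov γ v f := by rw [ampU_ap, ampU_ap, ampH_ap, ampH_ap, ← amp_mul, ← amp_mul, h.cov]
  pcov g v f := by rw [ampU_ap, ampU_ap, ampH_ap, ampH_ap, ← amp_mul, ← amp_mul, h.pcov]
  dom g u A hA hu ζ ε hε := by
    have h1 : ∀ x : Q, ∃ R : ℝ, ∀ T > 0, ∀ᶠ t : ℕ in (𝒰 : Filter ℕ),
      ‖U (g • v0) u (ζ x)‖ ≤ ‖u‖ * ‖m (NA R T A)
        (π (ι (g * b ^ t * g⁻¹))⁻¹ (ζ x))‖ + ε / (Fintype.card Q + 1) :=
      fun x => h.dom g u A hA hu (ζ x) _ (by positivity)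
    choose R hR using h1
    obtain ⟨R', hR'⟩ := (Set.finite_range R).bddAbove
    refine ⟨R', fun T hT => ?_⟩
    filter_upwards [Filter.eventually_all.2 fun x => hR x T hT] with t ht
    refine norm_le_coord (norm_nonneg _) hε.le fun x => ?_
    have h2 : ‖m (NA (R x) T A) (π (ι (g * b ^ t * g⁻¹))⁻¹ (ζ x))‖ ≤
        ‖m (NA R' T A) (π (ι (g * b ^ t * g⁻¹))⁻¹ (ζ x))‖ :=
      hm.mono (hN _ _ T A (hR' ⟨x, rfl⟩)) _
    have h3 : ‖(ampU Q (U (g • v0)) u) ζ x‖ = ‖U (g • v0) u (ζ x)‖ := rfl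
    have h4 : ‖(H333.Amp.amp (Q := Q) (m (NA R' T A)))
        (ampH Q π (ι (g * b ^ t * g⁻¹))⁻¹ ζ) x‖ =
        ‖m (NA R' T A) (π (ι (g * b ^ t * g⁻¹))⁻¹ (ζ x))‖ := rfl
    rw [h3, h4]
    exact (ht x).trans (add_le_add_left (mul_le_mul_of_nonneg_left h2 (norm_nonneg _)) _)
  agr hp v v' hv ξ hξ := by
    apply ext_co
    intro z
    refine h.agr hp v v' hv (ξ z) fun f => ?_
    exact congrArg (fun v : KT Q K => v z) (hξ f)

end fam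

variable {P M V₁ V₂ : Type} [MeasurableSpace V₁] [MeasurableSpace V₂]
  [MulAction S P] [TopologicalSpace P] [CompactSpace P]
  [ContinuousConstSMul S P] [MulAction S M] [TopologicalSpace M] [CompactSpace M]
  [ContinuousConstSMul S M] [NormedAddCommGroup V₁] [NormedAddCommGroup V₂]
  {L : Lt S P M V₁ V₂}

theorem orb_amp {V : Type} [MeasurableSpace V] [NormedAddCommGroup V] [OpensMeasurableSpace V]
    {μ : Measure V} {n : V → S} {b : S} [IsTopologicalGroup E] (hn : Continuous fun s => ι (n s))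
    (hc : ∀ ξ, Continuous fun g => π g ξ) (h : ORBF μ ι π lam W Ω b n) (j : κ ↪ Q) :
    ORB μ ι (ampH Q π) (ampH Q lam) (ampW Q W) (ampO j Ω) b n := by
  obtain ⟨ρ, h0, h1, h2⟩ := h
  exact ⟨ρ, h0, h1, orb_ampG hn hc h0.le h2 j⟩

/-- **The amplified leg has one vector.** `hp` is the amplified picture. -/
theorem leg_amp [OpensMeasurableSpace V₁] [OpensMeasurableSpace V₂] (hG : Geo L) (hN : NAMono L)
    {U11 : P → (C(P, ℂ) →ₗ[ℂ] (K →L[ℂ] K))} {p11 : ℝ}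
    {U12 : P → (C(M, ℂ) →ₗ[ℂ] (K →L[ℂ] K))} {p12 : ℝ}
    {U21 : M → (C(P, ℂ) →ₗ[ℂ] (K →L[ℂ] K))} {p21 : ℝ}
    {U22 : M → (C(M, ℂ) →ₗ[ℂ] (K →L[ℂ] K))} {p22 : ℝ}
    (h : LegPF L 𝒰 ι π lam W Ω m q U11 p11 U12 p12 U21 p21 U22 p22) (j : κ ↪ Q)
    (hp : RC.PicX (ampH Q π) (ampH Q lam) (ampW Q W) (ampO j Ω)) :
    LegP L 𝒰 ι (ampH Q π) (ampH Q lam) (ampW Q W) (ampO j Ω)
      (fun S => H333.Amp.amp (Q := Q) (m S)) q (fun x => ampU Q (U11 x)) p11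
      (fun x => ampU Q (U12 x)) p12 (fun x => ampU Q (U21 x)) p21 (fun x => ampU Q (U22 x)) p22 := by
  haveI := h.base.adm.tg
  have c1 : Continuous fun s => ι (L.u1 s) := h.base.adm.cι.comp hG.u1c
  have c2 : Continuous fun s => ι (L.u2 s) := h.base.adm.cι.comp hG.u2c
  have e1 : ∀ (R R' T : ℝ) (A : Set P), R ≤ R' → L.na1 q R T A ⊆ L.na1 q R' T A :=
    fun _ _ T A hR _ hx => hN.n1 T A hR hx
  have e2 : ∀ (R R' T : ℝ) (A : Set M), R ≤ R' → L.na2 q R T A ⊆ L.na2 q R' T A :=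
    fun _ _ T A hR _ hx => hN.n2 T A hR hx
  exact
    { base :=
        { adm := h.base.adm
          h𝒰 := h.base.h𝒰
          pic := hp
          ms := h.base.ms.amp j
          uc := uc_ampG h.base.uc j
          ph := h.base.ph
          fin := h.base.fin
          ud := h.base.ud
          orb1 := orb_amp c1 h.base.pic.contP h.base.orb1 j
          orb2 := orb_amp c2 h.base.pic.contP h.base.orb2 j
          orb2' := orb_amp c1 h.base.pic.contP h.base.orb2' j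
          size1 := size_ampG h.base.size1 j
          size2 := size_ampG h.base.size2 j
          prox1 := h.base.prox1
          prox2 := h.base.prox2
          nis1 := h.base.nis1
          nis2 := h.base.nis2 }
      u11 := ufam_amp h.base.ms e1 h.u11
      u12 := ufam_amp h.base.ms e2 h.u12
      u21 := ufam_amp h.base.ms e1 h.u21
      u22 := ufam_amp h.base.ms e2 h.u22
      s1 := h.s1
      s2 := h.s2
      i11 := fun c l hcl f g hfg => by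
        rw [ampU_ap, ampU_ap, ← amp_mul, h.i11 c l hcl f g hfg, amp_zero]
      i12 := fun c l hcl f g hfg => by
        rw [ampU_ap, ampU_ap, ← amp_mul, h.i12 c l hcl f g hfg, amp_zero] }

/-- **the same for all sufficiently large amplifications** -/
theorem exists_leg_amp [OpensMeasurableSpace V₁] [OpensMeasurableSpace V₂] (hG : Geo L)
    (hN : NAMono L) (h : HasLegF L 𝒰 ι π lam W Ω m q) :
    ∃ n : ℕ, ∀ (Q : Type) [Group Q] [Fintype Q], n ≤ Fintype.card Q → ∀ j : κ ↪ Q,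
      HasLeg L 𝒰 ι (ampH Q π) (ampH Q lam) (ampW Q W) (ampO j Ω)
        (fun S => H333.Amp.amp (Q := Q) (m S)) q := by
  obtain ⟨U11, p11, U12, p12, U21, p21, U22, p22, h⟩ := h
  obtain ⟨n, hn⟩ := h.base.pic.exists_amp
  exact ⟨n, fun Q _ _ hQ j => ⟨_, p11, _, p12, _, p21, _, p22, leg_amp hG hN h j (hn Q hQ j)⟩⟩

theorem HasLegF.base (h : HasLegF L 𝒰 ι π lam W Ω m q) : PBF L 𝒰 ι π lam W Ω m q := by
  obtain ⟨U11, p11, U12, p12, U21, p21, U22, p22, h⟩ := h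
  exact h.base

end amp

end Vale.Agent.P092.CL.T
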