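import Vale.Agent.P092.CLT.Stmt
import Vale.Agent.P092.CL.Tw
import Vale.Agent.P092.SNT.Flip

/-!
P092, stages 2 and 3, all amplifications (helper958): transport of the leg of a family of vectors
along a unitary; the second leg of the model `HH (PT α α α)` from the first one (port of
helper421's SPT/Flip to the letters `CL`).
-/

set_option linter.all false

open scoped InnerProductSpace ENNReal ZeroAtInfty
open Filter Topology ContinuousLinearMap MeasureTheory TopologicalSpace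

namespace Vale.Agent.P092.CL.T

open Vale.Agent.P092.RC (cj cj_ap cj_comm cm_cj norm_cj adjoint_cj Cm TRN TRNF Moore PicF Tw adjV3)
open Vale.Agent.P092.SD (MsF UC tw_uc)
open Vale.Agent.P092.SNT (ORBGF TwF tw_picF tw_msF tw_orbgF twF_flip)
open Vale.Agent.P092.H53.TwX
open Vale.Agent.P092.H790.CTA (ORBG SIZEG)
open Vale.Agent.P092.H232 (Nin)
open Vale.Agent.P092.H85 (cdat)
open Vale.Agent.P092.H515.St (IsLattice)
open Vale.Agent.P092.CL

section leg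

variable {S P M V₁ V₂ : Type} [Group S] [MeasurableSpace V₁] [MeasurableSpace V₂]
  {K K' κ : Type} [Fintype κ] [NormedAddCommGroup K] [InnerProductSpace ℂ K] [CompleteSpace K]
  [NormedAddCommGroup K'] [InnerProductSpace ℂ K'] [CompleteSpace K'] {u : K ≃ₗᵢ[ℂ] K'}
  {E Γ : Type} [Group E] [TopologicalSpace E] [Group Γ]
  {π : E →* (K →L[ℂ] K)} {lam : Γ →* (K →L[ℂ] K)}
  {W : Set (K →L[ℂ] K)} {Ω : κ → K} {π' : E →* (K' →L[ℂ] K')} {lam' : Γ →* (K' →L[ℂ] K')}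
  {W' : Set (K' →L[ℂ] K')} {Ω' : κ → K'} {q : Γ → S} {𝒰 : Ultrafilter ℕ}
  {m : Set Γ → (K →L[ℂ] K)} {ι : S →* E} {L : Lt S P M V₁ V₂}

theorem tw_orbF {V : Type} [MeasurableSpace V] [NormedAddCommGroup V] {μ : Measure V} {b : S}
    {n : V → S} (t : TwF u π lam W Ω π' lam' W' Ω') (h : ORBF μ ι π lam W Ω b n) :
    ORBF μ ι π' lam' W' Ω' b n := by
  obtain ⟨ρ, h1, h2, h3⟩ := h
  exact ⟨ρ, h1, h2, tw_orbgF t h3⟩

variable [TopologicalSpace S] [MulAction S P] [TopologicalSpace P] [CompactSpace P]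
  [ContinuousConstSMul S P] [MulAction S M] [TopologicalSpace M] [CompactSpace M]
  [ContinuousConstSMul S M] [NormedAddCommGroup V₁] [NormedAddCommGroup V₂]

theorem tw_pbF (t : TwF u π lam W Ω π' lam' W' Ω') (h : PBF L 𝒰 ι π lam W Ω m q) :
    PBF L 𝒰 ι π' lam' W' Ω' (fun S => cj u (m S)) q where
  adm := h.adm
  h𝒰 := h.h𝒰
  pic := tw_picF t h.pic
  ms := tw_msF t h.ms
  uc i := tw_uc (t.one i) (h.uc i)
  ph := h.ph
  fin := h.fin
  ud := h.ud
  orb1 := tw_orbF t h.orb1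
  orb2 := tw_orbF t h.orb2
  orb2' := tw_orbF t h.orb2'
  size1 i := tw_sizeg (t.one i) (h.size1 i)
  size2 i := tw_sizeg (t.one i) (h.size2 i)
  prox1 := h.prox1
  prox2 := h.prox2
  nis1 := h.nis1
  nis2 := h.nis2

/-- the limit maps do not see the vector; transport with the zero vector -/
theorem tw_ufamF {X Y : Type} [MulAction S X] [TopologicalSpace Y] [CompactSpace Y]
    [MulAction S Y] [ContinuousConstSMul S Y] {b : S} {v0 : X}
    {NA : ℝ → ℝ → Set Y → Set Γ} {U : X → (C(Y, ℂ) →ₗ[ℂ] (K →L[ℂ] K))} {p : ℝ}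
    (t : TwF u π lam W Ω π' lam' W' Ω') (h : UFam 𝒰 b v0 ι π lam W m q NA U p) :
    UFam 𝒰 b v0 ι π' lam' W' (fun S => cj u (m S)) q NA (fun x => cjU u (U x)) p :=
  Tw.tw_ufam (Ω := 0) (Ω' := 0) ⟨t.pi, t.lam, t.W, (map_zero u).symm⟩ h

/-- **Transport of a leg with a family of vectors.** -/
theorem tw_legPF
    {U11 : P → (C(P, ℂ) →ₗ[ℂ] (K →L[ℂ] K))} {p11 : ℝ}
    {U12 : P → (C(M, ℂ) →ₗ[ℂ] (K →L[ℂ] K))} {p12 : ℝ}
    {U21 : M → (C(P, ℂ) →ₗ[ℂ] (K →L[ℂ] K))} {p21 : ℝ}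
    {U22 : M → (C(M, ℂ) →ₗ[ℂ] (K →L[ℂ] K))} {p22 : ℝ}
    (t : TwF u π lam W Ω π' lam' W' Ω')
    (h : LegPF L 𝒰 ι π lam W Ω m q U11 p11 U12 p12 U21 p21 U22 p22) :
    LegPF L 𝒰 ι π' lam' W' Ω' (fun S => cj u (m S)) q (fun x => cjU u (U11 x)) p11
      (fun x => cjU u (U12 x)) p12 (fun x => cjU u (U21 x)) p21 (fun x => cjU u (U22 x)) p22 where
  base := tw_pbF t h.base
  u11 := tw_ufamF t h.u11
  u12 := tw_ufamF t h.u12
  u21 := tw_ufamF t h.u21
  u22 := tw_ufamF t h.u22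
  s1 := h.s1
  s2 := h.s2
  i11 c l hcl f g hfg := by
    rw [cjU_ap, cjU_ap, ← map_mul, h.i11 c l hcl f g hfg, map_zero]
  i12 c l hcl f g hfg := by
    rw [cjU_ap, cjU_ap, ← map_mul, h.i12 c l hcl f g hfg, map_zero]

/-- **Transport of the data of a leg.** -/
theorem tw_hasLegF (t : TwF u π lam W Ω π' lam' W' Ω') (h : HasLegF L 𝒰 ι π lam W Ω m q) :
    HasLegF L 𝒰 ι π' lam' W' Ω' (fun S => cj u (m S)) q := by
  obtain ⟨U11, p11, U12, p12, U21, p21, U22, p22, h⟩ := h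
  exact ⟨_, p11, _, p12, _, p21, _, p22, tw_legPF t h⟩

end leg

section half

open Vale.Agent.P092.SR Vale.Agent.P092.H160 Vale.Agent.P092.H103 Vale.Agent.P092.H962
open Vale.Agent.P092.SDT (sT sT_sq sT_adj sT_V sT_A sT_B)

variable {S P M V₁ V₂ : Type} [Group S] [MeasurableSpace V₁] [MeasurableSpace V₂]
  [TopologicalSpace S] [MulAction S P] [TopologicalSpace P] [CompactSpace P]
  [ContinuousConstSMul S P] [MulAction S M] [TopologicalSpace M] [CompactSpace M]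
  [ContinuousConstSMul S M] [NormedAddCommGroup V₁] [NormedAddCommGroup V₂]

/-- **The second leg is the flip of the first one.** -/
theorem exT_of_half {L : Lt S P M V₁ V₂} {E : Type} [Group E] [TopologicalSpace E]
    [IsTopologicalGroup E] [LocallyCompactSpace E] [SecondCountableTopology E] [T2Space E]
    {ι : S →* E} (h : ExHalfT L ι) : ExStmtT L ι := by
  intro _ _ Γ _ _ _ _ ν _ hν hΓ hicc Λ _ _ hΛ I _ α hα
  obtain ⟨𝒰, κ, iκ, Ω, m, q, l1, h1⟩ := h (Γ := Γ) hν hΓ hicc hΛ hα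
  exact ⟨𝒰, κ, κ, iκ, iκ, Ω, _, m, _, q, q, l1,
    tw_hasLegF (twF_flip hν (sT_sq hα) (sT_adj hα) (sT_V hα) (sT_A hα) (sT_B hα) (adjV3 hα) Ω) l1,
    h1, h1⟩

end half

end Vale.Agent.P092.CL.T
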