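import Vale.Agent.P092.CLT.Stmt
import Vale.Agent.P092.CL.Main
import Vale.Agent.P092.SNT.Main

/-!
P092, TEAM P, stages 2 and 3, all amplifications (helper21, after SPT/Main of helper421 and CL/Main
of helper142): the assembly. `CoreAllE E` from the joints `CL` and the concrete legs of the honest
family.
-/

set_option linter.all false

open scoped InnerProductSpace ENNReal LinearAlgebra.Projectivization ZeroAtInfty
open Filter Topology ContinuousLinearMap MeasureTheory TopologicalSpace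

namespace Vale.Agent.P092.CL.T

open Vale.Agent.P092.CL
open Vale.Agent.P092.RC (Cm TRN Moore GG PG YY ampH ampH_ap ampW ampO ampW_union range_ampH
  amp_comm_iff adjV3)
open Vale.Agent.P092.H35 (sp)
open Vale.Agent.P092.H303 (FormGroup)
open Vale.Agent.P092.H370.Po
open Vale.Agent.P092.H714.Cl (hf Frm)
open Vale.Agent.P092.H416.CL (pt rho EP)
open Vale.Agent.P092.H325.SX (ClsF)
open Vale.Agent.P092.H325.CL (Sc Nmc ph_rho fin_rho xcCL)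
open Vale.Agent.P092.SN (TVE)
open Vale.Agent.P092.H333.Amp
open Vale.Agent.P092.H85 (cdat)
open Vale.Agent.P092.SNT (TVEF tvE_amp tv_tri cleg_unamp CoreAllE)

/-! ### The abstract part: both legs -/

section abs

variable {n : Type} [Fintype n] [DecidableEq n] {k : Type} [NontriviallyNormedField k]
  [ProperSpace k] {σ : k →+* k} [Fact (Continuous σ)] {ε : k} {J : Matrix n n k} {N r : ℕ}
  {M V₁ V₂ : Type} [MeasurableSpace V₁] [MeasurableSpace V₂] [NormedAddCommGroup V₁]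
  [NormedAddCommGroup V₂] [OpensMeasurableSpace V₁] [OpensMeasurableSpace V₂]
  [TopologicalSpace M] [CompactSpace M] [MulAction (FormGroup σ J) M]
  [ContinuousConstSMul (FormGroup σ J) M] {L : Lt (FormGroup σ J) (SGr σ J 1) M V₁ V₂}
  {E Γ K : Type} [Group E] [TopologicalSpace E] [Group Γ] [NormedAddCommGroup K]
  [InnerProductSpace ℂ K] [CompleteSpace K] {ι : FormGroup σ J →* E} {π : E →* (K →L[ℂ] K)}
  {lam₁ lam₂ : Γ →* (K →L[ℂ] K)} {X : Set (K →L[ℂ] K)}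

/-- **Two legs of families give two commuting classical legs.** -/
theorem clegs_of [Countable Γ] (e : n ≃ Fin (N + 1)) (hF : Frm σ ε J) (hW : WI σ J r) (hr : 2 ≤ r)
    (hG : Geo L) (hA : Adm L ι) (hZ : Sc e L) (hN : Nmc e L) (hOne : OneStmt L)
    (hCls : ClsStmt e L) (hNA : NAMono L)
    {κ κ₁ κ₂ : Type} [Fintype κ] [Fintype κ₁] [Fintype κ₂] {Ω : κ → K} {Ω₁ : κ₁ → K} {Ω₂ : κ₂ → K}
    (hp : RC.Pic2F π lam₁ lam₂ X Ω) (tv : TVEF π lam₁ (X ∪ Set.range lam₂) Ω)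
    {𝒰₁ 𝒰₂ : Ultrafilter ℕ} {m₁ m₂ : Set Γ → (K →L[ℂ] K)} {q₁ q₂ : Γ → FormGroup σ J}
    (l1 : HasLegF L 𝒰₁ ι π lam₁ (X ∪ Set.range lam₂) Ω₁ m₁ q₁)
    (l2 : HasLegF L 𝒰₂ ι π lam₂ (X ∪ Set.range lam₁) Ω₂ m₂ q₂)
    (i1 : ∀ γ, q₁ γ ∈ L.Z → γ = 1) (i2 : ∀ γ, q₂ γ ∈ L.Z → γ = 1) (p1 : L.PH q₁) (p2 : L.PH q₂)
    (f1 : ∀ C : ℝ, {γ | L.nm (q₁ γ) ≤ C}.Finite) (f2 : ∀ C : ℝ, {γ | L.nm (q₂ γ) ≤ C}.Finite) :
    ∃ Q₁ Q₂ : C₀(PG k (N + 1), ℂ) →⋆ₙₐ[ℂ] (K →L[ℂ] K),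
      H264.Cl.CLeg π lam₁ (X ∪ Set.range lam₂)
        (SN.qP (fun γ => rho e σ J (q₁ γ)) (ph_rho hZ p1)) Q₁ ∧
      H264.Cl.CLeg π lam₂ (X ∪ Set.range lam₁)
        (SN.qP (fun γ => rho e σ J (q₂ γ)) (ph_rho hZ p2)) Q₂ ∧
      ∀ ψ φ, Commute (Q₁ ψ) (Q₂ φ) := by
  obtain ⟨n₁, g₁⟩ := exists_leg_amp hG hNA l1
  obtain ⟨n₂, g₂⟩ := exists_leg_amp hG hNA l2
  obtain ⟨n₃, g₃⟩ := hp.leg₁.exists_amp
  obtain ⟨Q, _, _, ⟨jj⟩, hQ⟩ := RC.exists_grp (κ ⊕ κ₁ ⊕ κ₂) (n₁ + n₂ + n₃)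
  obtain ⟨j, -⟩ : ∃ j : κ ↪ Q, True := ⟨Function.Embedding.inl.trans jj, trivial⟩
  obtain ⟨j₁, -⟩ : ∃ j : κ₁ ↪ Q, True :=
    ⟨(Function.Embedding.inl.trans Function.Embedding.inr).trans jj, trivial⟩
  obtain ⟨j₂, -⟩ : ∃ j : κ₂ ↪ Q, True :=
    ⟨(Function.Embedding.inr.trans Function.Embedding.inr).trans jj, trivial⟩
  have L1 := g₁ Q (by omega) j₁
  have L2 := g₂ Q (by omega) j₂
  have P1 := g₃ Q (by omega) j
  have T1 : TVE (ampH Q π) (ampH Q lam₁) (ampW Q (X ∪ Set.range lam₂)) (ampO j Ω) := tvE_amp tv j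
  obtain ⟨E₁, F₁, c1⟩ := hOne 𝒰₁ ι _ _ _ _ _ q₁ L1
  obtain ⟨E₂, F₂, c2⟩ := hOne 𝒰₂ ι _ _ _ _ _ q₂ L2
  obtain ⟨τ₁, P, hP⟩ := hCls 𝒰₁ ι _ _ _ _ _ q₁ E₁ F₁ c1
  obtain ⟨τ₂, R, hR⟩ := hCls 𝒰₂ ι _ _ _ _ _ q₂ E₂ F₂ c2
  have C1 := cleg_of e hP hA.sur (ph_rho hZ p1) (fun γ h => i1 γ (z_of_sp e hG h)) (fin_rho hN f1)
  have C2 := cleg_of e hR hA.sur (ph_rho hZ p2) (fun γ h => i2 γ (z_of_sp e hG h)) (fin_rho hN f2)
  have a2 := c2.leg.base.pic.adjL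
  have hc : ∀ ψ φ, Commute (P ψ) (R φ) := by
    rw [ampW_union, ← range_ampH] at P1 T1 hP hR
    intro ψ φ
    exact xcCL e hF hW hr P1 (fun Y h1 h2 h => T1 Y ⟨h1, h2⟩ (ι h)) a2 (ph_rho hZ p1)
      (ph_rho hZ p2) (fin_rho hN f1) hP hR ψ φ
  obtain ⟨P', e1, h1⟩ := cleg_unamp C1
  obtain ⟨R', e2, h2⟩ := cleg_unamp C2
  refine ⟨P', R', h1, h2, fun ψ φ => ?_⟩
  have h3 := hc ψ φ
  rw [e1, e2] at h3
  exact amp_comm_iff.1 h3

end abs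

/-! ### The concrete picture -/

section conc

open Vale.Agent.P092.SR Vale.Agent.P092.H160 Vale.Agent.P092.H103 Vale.Agent.P092.H962

variable {n : Type} [Fintype n] [DecidableEq n] {k : Type} [NontriviallyNormedField k]
  [ProperSpace k] {σ : k →+* k} [Fact (Continuous σ)] {ε : k} {J : Matrix n n k} {N r : ℕ}
  {M V₁ V₂ : Type} [MeasurableSpace V₁] [MeasurableSpace V₂] [NormedAddCommGroup V₁]
  [NormedAddCommGroup V₂] [OpensMeasurableSpace V₁] [OpensMeasurableSpace V₂]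
  [TopologicalSpace M] [CompactSpace M] [MulAction (FormGroup σ J) M]
  [ContinuousConstSMul (FormGroup σ J) M] {L : Lt (FormGroup σ J) (SGr σ J 1) M V₁ V₂}

/-- **Assembly.** -/
theorem coreAllE_of {E : Type} [Group E] [TopologicalSpace E] [IsTopologicalGroup E]
    [LocallyCompactSpace E] [SecondCountableTopology E] [T2Space E] {ι : FormGroup σ J →* E}
    (e : n ≃ Fin (N + 1)) (hF : Frm σ ε J) (hW : WI σ J r) (hr : 2 ≤ r) (hG : Geo L)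
    (hA : Adm L ι) (hZ : Sc e L) (hN : Nmc e L) (hOne : OneStmt L) (hCls : ClsStmt e L)
    (hNA : NAMono L) (hEx : ExStmtT L ι) : CoreAllE E := by
  haveI : NoncompactSpace E := nc_E hG hA
  intro Γ hΓ hicc Λ _ _ hΛ n' p hpj θ
  letI : MeasurableSpace E := borel _
  haveI : BorelSpace E := ⟨rfl⟩
  haveI hd : DiscreteTopology Γ := hΓ.disc
  haveI hc : Countable Γ := H790.countable_of_discrete (E := E) Γ
  letI : MeasurableSpace (E ⧸ Γ) := borel _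
  haveI : BorelSpace (E ⧸ Γ) := ⟨rfl⟩
  obtain ⟨ν, hP', hν⟩ := H515.IsLattice.exists_prob (Λ := Γ) ⟨hΓ.disc, hΓ.covol⟩
  have hα : AF (H103.alf θ) := H103.af_of hicc hpj θ
  obtain ⟨m, m', ξ, hT⟩ := H962.exists_tri hα hα hα hΛ
  obtain ⟨B, b, hB⟩ := H421.HsT.exists_basisHH (P := PT (H103.alf θ) (H103.alf θ) (H103.alf θ))
  have p2 := RC.pic2F_HH hν hα hα hα hicc hΛ (adjV3 hα) hT
  have tv := tv_tri hν (adjV3 hα) b hT
  obtain ⟨𝒰, κ₁, κ₂, _, _, Ω₁, Ω₂, m₁, m₂, q₁, q₂, l1, l2, i1, i2⟩ :=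
    hEx (Γ := Γ) hν hΓ hicc hΛ hα
  obtain ⟨Q₁, Q₂, h1, h2, h12⟩ := clegs_of e hF hW hr hG hA hZ hN hOne hCls hNA p2 tv l1 l2 i1 i2
    l1.base.ph l2.base.ph l1.base.fin l2.base.fin
  exact H264.Amp.canonM_of_over hicc hΛ hpj θ rfl hα (H264.Amp.over_of_legs hν hT
    (X := H34.Ind.Xset (cdat ν hν) (HH (PT (H103.alf θ) (H103.alf θ) (H103.alf θ))))
    (fun S hS => ⟨S, hS, rfl⟩) h1 h2 h12)

end conc

end Vale.Agent.P092.CL.T
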