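import Vale.Agent.P092.CL.GeoF
import Vale.Agent.P092.CL.FrmP
import Vale.Agent.P092.CLT.Main
import Vale.Agent.P092.CLT.Flip
import Vale.Agent.P092.H21.C.MassC
import Vale.Agent.P092.H325.ClXl
import Vale.Agent.P092.H416.CLas
import Vale.Agent.P092.H923.PJ9
import Vale.Agent.P092.H958.NaLt
import Vale.Agent.P092.H71.P.CLGap2
import Vale.Agent.P092.H874.CLAdm
import Vale.Agent.P092.H632.T2.Gok

/-!
P092, TEAM P, stages 2 and 3, all amplifications (helper21, after CL/Asm and CL/AsmC of helper53):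
the last assembly for the letters `CL.lt` (symplectic and unitary groups of Witt index
`s + 2 ≥ 2`). The only joint which remains is `OneStmt (lt ..)`.
-/

set_option linter.all false

open scoped InnerProductSpace ENNReal
open Filter Topology MeasureTheory TopologicalSpace Matrix

namespace Vale.Agent.P092.CL.T

open Vale.Agent.P092.CL
open Vale.Agent.P092.H303 (FormGroup Idx hyp)
open Vale.Agent.P092.H714.Cl
open Vale.Agent.P092.H370.Po (SGr Inc Sing WI)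
open Vale.Agent.P092.SNT (CoreAllE)
open Vale.Agent.P092.H933 (LeviGap LocK)
open Vale.Agent.P092.H632.T2 (gau gauOk_lt)

section asm

variable {k : Type} [NontriviallyNormedField k] [ProperSpace k] [MeasurableSpace k]
  [BorelSpace k] {ι : Type} [Fintype ι] [DecidableEq ι] {s : ℕ} {σ : k →+* k}
  [Fact (Continuous σ)] {ε : k} {J₀ : Matrix ι ι k} {w : k} {E : Type} [Group E]
  [TopologicalSpace E] [IsTopologicalGroup E] [LocallyCompactSpace E]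
  [SecondCountableTopology E] [T2Space E]

theorem exists_eqv (s : ℕ) (ι : Type) [Fintype ι] [DecidableEq ι] :
    ∃ N, Nonempty (Idx (s + 2) ι ≃ Fin (N + 1)) := by
  have h0 : Fintype.card (Idx (s + 2) ι) ≠ 0 := by
    have : Fintype.card (Idx (s + 2) ι) = (s + 2) + (s + 2) + Fintype.card ι := by
      unfold Idx
      rw [Fintype.card_sum, Fintype.card_sum, Fintype.card_fin]
    omega
  obtain ⟨N, hN⟩ := Nat.exists_eq_succ_of_ne_zero h0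
  exact ⟨N, ⟨Fintype.equivFinOfCardEq hN⟩⟩

omit [ProperSpace k] [BorelSpace k] in
/-- **[CL-CLS]** for the letters `lt` -/
theorem clsStmt_lt [ProperSpace k] {N : ℕ} (e : Idx (s + 2) ι ≃ Fin (N + 1))
    (hF : Frm σ ε (hyp (s + 2) ε J₀)) (hW : WI σ (hyp (s + 2) ε J₀) (s + 2)) (hw : w ≠ 0)
    (hσ : σ w = w) (μ₁ : Measure k) (μ₂ : Measure (V2 σ ε)) (hG : Geo (lt hF hw hσ μ₁ μ₂)) :
    ClsStmt e (lt hF hw hσ μ₁ μ₂) := by
  intro E' Γ K _ _ _ _ _ _ 𝒰 ι π lam W Ω m q Ec F h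
  exact H416.CLG.clsCL hG rfl e hF hW (Nat.le_add_left 2 s) h

/-- **[CL-EX-T]** for the letters `lt`, all amplifications -/
theorem exStmtT_lt {i : FormGroup σ (hyp (s + 2) ε J₀) →* E} (hk : LocK k)
    (hσn : ∀ x, ‖σ x‖ = ‖x‖) (hw : w ≠ 0) (hσ : σ w = w) (hw1 : ‖w‖ < 1) (μ₁ : Measure k)
    (μ₂ : Measure (V2 σ ε)) [μ₁.IsAddHaarMeasure] [μ₂.IsAddHaarMeasure]
    (hF : Frm σ ε (hyp (s + 2) ε J₀)) (hW : WI σ (hyp (s + 2) ε J₀) (s + 2))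
    (hA : Adm (lt hF hw hσ μ₁ μ₂) i) (g1 : LeviGap (lt hF hw hσ μ₁ μ₂).b1)
    (g2 : LeviGap (lt hF hw hσ μ₁ μ₂).b2) : ExStmtT (lt hF hw hσ μ₁ μ₂) i := by
  haveI := H71.CLG.v2_proper (ε := ε) hσn
  obtain ⟨N, ⟨e⟩⟩ := exists_eqv s ι
  obtain ⟨bp, bm, hT⟩ := gauOk_lt hk hσn e hF hW hw hσ μ₁ μ₂
  have hG := geo hF hW hσn hw hσ hw1 μ₁ μ₂
  have hM : H21.C.MassStmt (lt hF hw hσ μ₁ μ₂) (gau e (s + 2) (MonoidHom.id _) bp bm) i := by
    have h1 := @H21.C.massStmt_lt k _ _ _ ι _ _ s N σ ε J₀ _ hk hσn e hF hW w hw hσ hw1 μ₁ μ₂ hG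
      (fun p hp => H874.CLAdm.hmg_frm hσn (frm_p hF hp)) bp bm E _ _ _ _ _ _ i hA
    exact @h1
  apply exT_of_half
  apply H21.C.exHalfT_of hG hT (H923.CLI.ovlStmt hT hσn hW) hA
    (inferInstanceAs (IsFiniteMeasureOnCompacts μ₁))
    (inferInstanceAs (IsFiniteMeasureOnCompacts μ₂))
    (H71.CLG.sprL hF hσn hw hσ hw1 μ₁ μ₂) g1 g2
  exact @hM

/-- **The core, all amplifications, for every admissible source group**: symplectic and unitary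
groups of Witt index at least two. -/
theorem coreAllE_adm {i : FormGroup σ (hyp (s + 2) ε J₀) →* E} (hk : LocK k)
    (hσn : ∀ x, ‖σ x‖ = ‖x‖) (hw : w ≠ 0) (hσ : σ w = w) (hw1 : ‖w‖ < 1) (μ₁ : Measure k)
    (μ₂ : Measure (V2 σ ε)) [μ₁.IsAddHaarMeasure] [μ₂.IsAddHaarMeasure]
    (hF : Frm σ ε (hyp (s + 2) ε J₀)) (hW : WI σ (hyp (s + 2) ε J₀) (s + 2))
    (hA : Adm (lt hF hw hσ μ₁ μ₂) i) (g1 : LeviGap (lt hF hw hσ μ₁ μ₂).b1)
    (g2 : LeviGap (lt hF hw hσ μ₁ μ₂).b2) (hOne : OneStmt (lt hF hw hσ μ₁ μ₂)) :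
    CoreAllE E := by
  have hG := geo hF hW hσn hw hσ hw1 μ₁ μ₂
  obtain ⟨N, ⟨e⟩⟩ := exists_eqv s ι
  exact coreAllE_of e hF hW (Nat.le_add_left 2 s) hG hA (H325.CL.sc_lt e hF hw hσ μ₁ μ₂)
    (H325.CL.nmc_lt e hF hw hσ μ₁ μ₂) hOne (clsStmt_lt e hF hW hw hσ μ₁ μ₂ hG)
    (naMono_lt hF hw hσ μ₁ μ₂)
    (exStmtT_lt hk hσn hw hσ hw1 μ₁ μ₂ hF hW hA g1 g2)

omit [Fact (Continuous σ)] [MeasurableSpace k] [BorelSpace k] in
/-- **The core, all amplifications, for `PSp(J)` and `PSU(J)`**, Witt index `s + 2 ≥ 2`; joint: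
`OneStmt`. -/
theorem coreAllE_cen (hk : LocK k) (hσn : ∀ x, ‖σ x‖ = ‖x‖) (hF : Frm σ ε (hyp (s + 2) ε J₀))
    (hW : WI σ (hyp (s + 2) ε J₀) (s + 2))
    (hg : ∀ {w : k} (hw : w ≠ 0) (hσ : σ w = w), ‖w‖ < 1 →
      LeviGap (b1 hw hσ : FormGroup σ (hyp (s + 2) ε J₀)) ∧
        LeviGap (b2 hw hσ : FormGroup σ (hyp (s + 2) ε J₀)))
    (hOne : ∀ [MeasurableSpace k] [BorelSpace k] [Fact (Continuous σ)] {w : k} (hw : w ≠ 0)
      (hσ : σ w = w) (_ : ‖w‖ < 1) (μ₁ : Measure k) (μ₂ : Measure (V2 σ ε))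
      [μ₁.IsAddHaarMeasure] [μ₂.IsAddHaarMeasure], OneStmt (lt hF hw hσ μ₁ μ₂)) :
    CoreAllE (FormGroup σ (hyp (s + 2) ε J₀) ⧸
      Subgroup.center (FormGroup σ (hyp (s + 2) ε J₀))) := by
  letI : MeasurableSpace k := borel k
  haveI : BorelSpace k := ⟨rfl⟩
  have hσc : Continuous σ := continuous_of_norm hσn
  haveI : Fact (Continuous σ) := ⟨hσc⟩
  haveI := H71.CLG.v2_proper (ε := ε) hσn
  haveI := H874.CLAdm.t2_quo hF (Z := Subgroup.center (FormGroup σ (hyp (s + 2) ε J₀))) le_rfl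
  haveI := H874.CLAdm.lc_quo hσn
    (Subgroup.center (FormGroup σ (hyp (s + 2) ε J₀)))
  haveI := H874.CLAdm.sc_quo (Subgroup.center (FormGroup σ (hyp (s + 2) ε J₀)))
  obtain ⟨r, hr, hr1⟩ := exists_fix hF hσn
  have hr0 : r ≠ 0 := by
    rintro rfl
    rw [norm_zero] at hr1
    linarith
  have hw : r⁻¹ ≠ 0 := inv_ne_zero hr0
  have hσ : σ r⁻¹ = r⁻¹ := by rw [map_inv₀, hr]
  have hw1 : ‖r⁻¹‖ < 1 := by
    rw [norm_inv]
    exact inv_lt_one_of_one_lt₀ hr1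
  obtain ⟨g1, g2⟩ := hg hw hσ hw1
  exact coreAllE_adm hk hσn hw hσ hw1 Measure.addHaar Measure.addHaar hF hW
    (H874.CLAdm.adm_cen hσn hF hw hσ _ _) g1 g2 (hOne hw hσ hw1 _ _)

end asm

end Vale.Agent.P092.CL.T
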