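import Vale.Agent.P092.CLT.Amp
import Vale.Agent.P092.H962.C.PicT

/-!
P092, TEAM P, stages 2 and 3, all amplifications (helper21): the statements about the concrete
picture of an honest family over a source group `E`, in the letters `CL`.
-/

set_option linter.all false

open scoped InnerProductSpace ENNReal
open Filter Topology ContinuousLinearMap MeasureTheory TopologicalSpace

namespace Vale.Agent.P092.CL.T

open Vale.Agent.P092.CL
open Vale.Agent.P092.RC (adjV3)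
open Vale.Agent.P092.H85 (cdat)
open Vale.Agent.P092.SR Vale.Agent.P092.H160 Vale.Agent.P092.H103 Vale.Agent.P092.H962

/-- **[CL-EX-T]** the concrete picture over a source group `E`, all amplifications: both legs. The
families `Ω₁`, `Ω₂` are free. -/
def ExStmtT {S P M V₁ V₂ : Type} [Group S] [MeasurableSpace V₁] [MeasurableSpace V₂]
    [TopologicalSpace S] [MulAction S P] [TopologicalSpace P] [CompactSpace P]
    [ContinuousConstSMul S P] [MulAction S M] [TopologicalSpace M] [CompactSpace M]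
    [ContinuousConstSMul S M] [NormedAddCommGroup V₁] [NormedAddCommGroup V₂]
    (L : Lt S P M V₁ V₂) {E : Type} [Group E] [TopologicalSpace E] [IsTopologicalGroup E]
    [LocallyCompactSpace E] [SecondCountableTopology E] [T2Space E] (ι : S →* E) : Prop :=
  ∀ [MeasurableSpace E] [BorelSpace E] {Γ : Subgroup E} [DiscreteTopology Γ] [Countable Γ]
    [MeasurableSpace (E ⧸ Γ)] [BorelSpace (E ⧸ Γ)] {ν : Measure (E ⧸ Γ)}
    [IsProbabilityMeasure ν] (hν : ∀ g : E, ν.map (fun x => g • x) = ν)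
    (_ : H515.St.IsLattice Γ) (_ : ∀ g : Γ, g ≠ 1 → Set.Infinite {y : Γ | ∃ h, y = h * g * h⁻¹})
    {Λ : Type} [Group Λ] [Countable Λ]
    (_ : ∀ g : Λ, g ≠ 1 → Set.Infinite {y : Λ | ∃ h, y = h * g * h⁻¹})
    {I : Type} [Fintype I] {α : Γ → (Ell2 (I × Λ) →L[ℂ] Ell2 (I × Λ))} (hα : AF α),
    ∃ (𝒰 : Ultrafilter ℕ) (κ₁ κ₂ : Type) (_ : Fintype κ₁) (_ : Fintype κ₂)
      (Ω₁ : κ₁ → Lp (HH (PT α α α)) 2 (cdat ν hν).μ) (Ω₂ : κ₂ → Lp (HH (PT α α α)) 2 (cdat ν hν).μ)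
      (m₁ m₂ : Set Γ → (Lp (HH (PT α α α)) 2 (cdat ν hν).μ →L[ℂ]
        Lp (HH (PT α α α)) 2 (cdat ν hν).μ)) (q₁ q₂ : Γ → S),
      HasLegF L 𝒰 ι (H34.Ind.pi (cdat ν hν) (V := V3 hα hα hα) (adjV3 hα))
        (H34.Ind.lam (cdat ν hν) (A3R hα hα hα))
        (H34.Ind.Xset (cdat ν hν) (HH (PT α α α)) ∪
          Set.range (H34.Ind.lam (cdat ν hν) (B3R hα hα hα))) Ω₁ m₁ q₁ ∧
      HasLegF L 𝒰 ι (H34.Ind.pi (cdat ν hν) (V := V3 hα hα hα) (adjV3 hα))
        (H34.Ind.lam (cdat ν hν) (B3R hα hα hα))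
        (H34.Ind.Xset (cdat ν hν) (HH (PT α α α)) ∪
          Set.range (H34.Ind.lam (cdat ν hν) (A3R hα hα hα))) Ω₂ m₂ q₂ ∧
      (∀ γ, q₁ γ ∈ L.Z → γ = 1) ∧ (∀ γ, q₂ γ ∈ L.Z → γ = 1)

/-- **[CL-HALF-T]** the first leg. -/
def ExHalfT {S P M V₁ V₂ : Type} [Group S] [MeasurableSpace V₁] [MeasurableSpace V₂]
    [TopologicalSpace S] [MulAction S P] [TopologicalSpace P] [CompactSpace P]
    [ContinuousConstSMul S P] [MulAction S M] [TopologicalSpace M] [CompactSpace M]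
    [ContinuousConstSMul S M] [NormedAddCommGroup V₁] [NormedAddCommGroup V₂]
    (L : Lt S P M V₁ V₂) {E : Type} [Group E] [TopologicalSpace E] [IsTopologicalGroup E]
    [LocallyCompactSpace E] [SecondCountableTopology E] [T2Space E] (ι : S →* E) : Prop :=
  ∀ [MeasurableSpace E] [BorelSpace E] {Γ : Subgroup E} [DiscreteTopology Γ] [Countable Γ]
    [MeasurableSpace (E ⧸ Γ)] [BorelSpace (E ⧸ Γ)] {ν : Measure (E ⧸ Γ)}
    [IsProbabilityMeasure ν] (hν : ∀ g : E, ν.map (fun x => g • x) = ν)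
    (_ : H515.St.IsLattice Γ) (_ : ∀ g : Γ, g ≠ 1 → Set.Infinite {y : Γ | ∃ h, y = h * g * h⁻¹})
    {Λ : Type} [Group Λ] [Countable Λ]
    (_ : ∀ g : Λ, g ≠ 1 → Set.Infinite {y : Λ | ∃ h, y = h * g * h⁻¹})
    {I : Type} [Fintype I] {α : Γ → (Ell2 (I × Λ) →L[ℂ] Ell2 (I × Λ))} (hα : AF α),
    ∃ (𝒰 : Ultrafilter ℕ) (κ : Type) (_ : Fintype κ)
      (Ω : κ → Lp (HH (PT α α α)) 2 (cdat ν hν).μ)
      (m : Set Γ → (Lp (HH (PT α α α)) 2 (cdat ν hν).μ →L[ℂ]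
        Lp (HH (PT α α α)) 2 (cdat ν hν).μ)) (q : Γ → S),
      HasLegF L 𝒰 ι (H34.Ind.pi (cdat ν hν) (V := V3 hα hα hα) (adjV3 hα))
        (H34.Ind.lam (cdat ν hν) (A3R hα hα hα))
        (H34.Ind.Xset (cdat ν hν) (HH (PT α α α)) ∪
          Set.range (H34.Ind.lam (cdat ν hν) (B3R hα hα hα))) Ω m q ∧
      (∀ γ, q γ ∈ L.Z → γ = 1)

end Vale.Agent.P092.CL.T
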