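import Vale.Agent.P092.CL.AsmO
import Vale.Agent.P092.CLT.MainO
import Vale.Agent.P092.CLT.Flip
import Vale.Agent.P092.H21.C.ExT
import Vale.Agent.P092.H21.S.OverP
import Vale.Agent.P092.H958.NaLt

/-!
P092, TEAM P, stage CL-O, all amplifications (helper21, after CL/AsmO of helper387): the last
assembly for the letters `ltO` (orthogonal groups of Witt index `s + 2 ≥ 2`, kernel not empty, any
local field), and the same for irreducible systems (`OverStmt`). The joints are `Geo`, `OneStmt`,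
`MassStmt` and the two gaps.
-/

set_option linter.all false

open scoped InnerProductSpace ENNReal
open Filter Topology MeasureTheory TopologicalSpace Matrix

namespace Vale.Agent.P092.CL.T

open Vale.Agent.P092.CL
open Vale.Agent.P092.H303 (FormGroup Idx hyp)
open Vale.Agent.P092.H714.Cl
open Vale.Agent.P092.H370.Po (SGr Inc Sing WI)
open Vale.Agent.P092.H370.Fo (Wf)
open Vale.Agent.P092.SNT (CoreAllE)
open Vale.Agent.P092.H933 (LeviGap LocK)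
open Vale.Agent.P092.H632.T2 (gau gauOk_ltO)
open Vale.Agent.P092.H21.C (MassStmt exHalfT_of)
open Vale.Agent.P092.H21.S (ExStmtS exS_of overStmt_ofP)
open Vale.Agent.P092.H678.OV (OverStmt)

section asm

variable {k : Type} [NontriviallyNormedField k] [ProperSpace k] [MeasurableSpace k]
  {ι : Type} [Fintype ι] [DecidableEq ι] {s : ℕ} {J₀ : Matrix ι ι k} {a : k}
  [BorelSpace k] (h : OF J₀) (ha : a ≠ 0) (μ₁ : Measure k)
  (μ₂ : Measure (ι → k)) [μ₁.IsAddHaarMeasure] [μ₂.IsAddHaarMeasure]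
  {E : Type} [Group E] [TopologicalSpace E] [IsTopologicalGroup E]
  [LocallyCompactSpace E] [SecondCountableTopology E] [T2Space E]
  {i : EUF (RingHom.id k) 1 (hyp (s + 2) 1 J₀) →* E}

/-- **[CL-EX-T]** for the letters `ltO` -/
theorem exStmtT_ltO (hG : Geo (ltO h s ha μ₁ μ₂)) (hA : Adm (ltO h s ha μ₁ μ₂) i)
    {T : Gau (EUF (RingHom.id k) 1 (hyp (s + 2) 1 J₀)) (SGr (RingHom.id k) (hyp (s + 2) 1 J₀) 1)
      (SGr (RingHom.id k) (hyp (s + 2) 1 J₀) (s + 2))} (hT : GauOk (ltO h s ha μ₁ μ₂) T)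
    (hs : H71.CLO.SprL (ltO h s ha μ₁ μ₂)) (g1 : LeviGap (ltO h s ha μ₁ μ₂).b1)
    (g2 : LeviGap (ltO h s ha μ₁ μ₂).b2) (hM : MassStmt (ltO h s ha μ₁ μ₂) T i) :
    ExStmtT (ltO h s ha μ₁ μ₂) i :=
  exT_of_half (exHalfT_of hG hT (H923.CLI.ovlStmtO hT (h.wi s)) hA
    (inferInstanceAs (IsFiniteMeasureOnCompacts μ₁))
    (inferInstanceAs (IsFiniteMeasureOnCompacts μ₂)) hs g1 g2 hM)

/-- both legs of an irreducible system for the letters `ltO` -/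
theorem exStmtS_ltO (hG : Geo (ltO h s ha μ₁ μ₂)) (hA : Adm (ltO h s ha μ₁ μ₂) i)
    {T : Gau (EUF (RingHom.id k) 1 (hyp (s + 2) 1 J₀)) (SGr (RingHom.id k) (hyp (s + 2) 1 J₀) 1)
      (SGr (RingHom.id k) (hyp (s + 2) 1 J₀) (s + 2))} (hT : GauOk (ltO h s ha μ₁ μ₂) T)
    (hs : H71.CLO.SprL (ltO h s ha μ₁ μ₂)) (g1 : LeviGap (ltO h s ha μ₁ μ₂).b1)
    (g2 : LeviGap (ltO h s ha μ₁ μ₂).b2) (hM : MassStmt (ltO h s ha μ₁ μ₂) T i) :
    ExStmtS (ltO h s ha μ₁ μ₂) i :=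
  exS_of hG hT (H923.CLI.ovlStmtO hT (h.wi s)) hA
    (inferInstanceAs (IsFiniteMeasureOnCompacts μ₁))
    (inferInstanceAs (IsFiniteMeasureOnCompacts μ₂)) hs g1 g2 hM

/-- **The core**, all amplifications: orthogonal groups of Witt index at least two. -/
theorem coreAllE_ltO (hG : Geo (ltO h s ha μ₁ μ₂)) (hA : Adm (ltO h s ha μ₁ μ₂) i)
    (hOne : OneStmt (ltO h s ha μ₁ μ₂)) (hEx : ExStmtT (ltO h s ha μ₁ μ₂) i) : CoreAllE E := by
  obtain ⟨N, hN⟩ : ∃ N, Fintype.card (Idx (s + 2) ι) = N + 1 :=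
    Nat.exists_eq_succ_of_ne_zero (Fintype.card_ne_zero (α := Idx (s + 2) ι))
  have e : Idx (s + 2) ι ≃ Fin (N + 1) := Fintype.equivFinOfCardEq hN
  exact coreAllE_ofP e (h.wf s) (Nat.le_add_left 2 s) hphiO hactO hG hA (scO e h ha μ₁ μ₂)
    (nmcO e h ha μ₁ μ₂) hOne (clsO e h ha μ₁ μ₂ hG) (naMono_ltO h ha μ₁ μ₂) hEx

/-- irreducible systems: orthogonal groups of Witt index at least two. -/
theorem overStmt_ltO (hG : Geo (ltO h s ha μ₁ μ₂)) (hA : Adm (ltO h s ha μ₁ μ₂) i)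
    (hOne : OneStmt (ltO h s ha μ₁ μ₂)) (hEx : ExStmtS (ltO h s ha μ₁ μ₂) i) : OverStmt E := by
  obtain ⟨N, hN⟩ : ∃ N, Fintype.card (Idx (s + 2) ι) = N + 1 :=
    Nat.exists_eq_succ_of_ne_zero (Fintype.card_ne_zero (α := Idx (s + 2) ι))
  have e : Idx (s + 2) ι ≃ Fin (N + 1) := Fintype.equivFinOfCardEq hN
  exact overStmt_ofP e (h.wf s) (Nat.le_add_left 2 s) hphiO hactO hG hA (scO e h ha μ₁ μ₂)
    (nmcO e h ha μ₁ μ₂) hOne (clsO e h ha μ₁ μ₂ hG) (naMono_ltO h ha μ₁ μ₂) hEx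

/-- **The core for every admissible source group**, all amplifications. -/
theorem coreAllE_admO (hk : LocK k) (hG : Geo (ltO h s ha μ₁ μ₂))
    (hA : Adm (ltO h s ha μ₁ μ₂) i) (hs : H71.CLO.SprL (ltO h s ha μ₁ μ₂))
    (g1 : LeviGap (ltO h s ha μ₁ μ₂).b1) (g2 : LeviGap (ltO h s ha μ₁ μ₂).b2)
    (hM : ∀ {N : ℕ} (e : Idx (s + 2) ι ≃ Fin (N + 1))
      (bp : FormGroup (RingHom.id k) (hyp (s + 2) 1 J₀) →
        SGr (RingHom.id k) (hyp (s + 2) 1 J₀) 1)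
      (bm : FormGroup (RingHom.id k) (hyp (s + 2) 1 J₀) →
        SGr (RingHom.id k) (hyp (s + 2) 1 J₀) (s + 2)),
      MassStmt (ltO h s ha μ₁ μ₂) (gau e (s + 2) (Subgroup.subtype _) bp bm) i)
    (hOne : OneStmt (ltO h s ha μ₁ μ₂)) : CoreAllE E ∧ OverStmt E := by
  obtain ⟨N, hN⟩ : ∃ N, Fintype.card (Idx (s + 2) ι) = N + 1 :=
    Nat.exists_eq_succ_of_ne_zero (Fintype.card_ne_zero (α := Idx (s + 2) ι))
  have e : Idx (s + 2) ι ≃ Fin (N + 1) := Fintype.equivFinOfCardEq hN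
  obtain ⟨bp, bm, hT⟩ := gauOk_ltO hk e h (h.wi s) ha μ₁ μ₂
  exact ⟨coreAllE_ltO h ha μ₁ μ₂ hG hA hOne
      (exStmtT_ltO h ha μ₁ μ₂ hG hA hT hs g1 g2 (hM e bp bm)),
    overStmt_ltO h ha μ₁ μ₂ hG hA hOne
      (exStmtS_ltO h ha μ₁ μ₂ hG hA hT hs g1 g2 (hM e bp bm))⟩

end asm

section cen

variable {k : Type} [NontriviallyNormedField k] [ProperSpace k] {ι : Type} [Fintype ι]
  [DecidableEq ι] {s : ℕ} {J₀ : Matrix ι ι k}

/-- **The core for `Ω(J) ⧸ centre`**, all amplifications, Witt index `s + 2 ≥ 2`, any local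
field. -/
theorem coreAllE_cenO (hk : LocK k) (h : OF J₀)
    (hG : ∀ [MeasurableSpace k] [BorelSpace k] {a : k} (ha : a ≠ 0) (_ : ‖a‖ < 1)
      (μ₁ : Measure k) (μ₂ : Measure (ι → k)) [μ₁.IsAddHaarMeasure] [μ₂.IsAddHaarMeasure],
      Geo (ltO h s ha μ₁ μ₂))
    (hs : ∀ [MeasurableSpace k] [BorelSpace k] {a : k} (ha : a ≠ 0) (_ : ‖a‖ < 1)
      (μ₁ : Measure k) (μ₂ : Measure (ι → k)) [μ₁.IsAddHaarMeasure] [μ₂.IsAddHaarMeasure],
      H71.CLO.SprL (ltO h s ha μ₁ μ₂))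
    (hg : ∀ {a : k} (ha : a ≠ 0) (_ : ‖a‖ < 1), LeviGap (b1O h s ha) ∧ LeviGap (b2O h s ha))
    (hM : ∀ [MeasurableSpace k] [BorelSpace k] {a : k} (ha : a ≠ 0) (_ : ‖a‖ < 1)
      (μ₁ : Measure k) (μ₂ : Measure (ι → k)) [μ₁.IsAddHaarMeasure] [μ₂.IsAddHaarMeasure]
      {E : Type} [Group E] [TopologicalSpace E] [IsTopologicalGroup E]
      [LocallyCompactSpace E] [SecondCountableTopology E] [T2Space E]
      {i : EUF (RingHom.id k) 1 (hyp (s + 2) 1 J₀) →* E} (_ : Adm (ltO h s ha μ₁ μ₂) i)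
      {N : ℕ} (e : Idx (s + 2) ι ≃ Fin (N + 1))
      (bp : FormGroup (RingHom.id k) (hyp (s + 2) 1 J₀) →
        SGr (RingHom.id k) (hyp (s + 2) 1 J₀) 1)
      (bm : FormGroup (RingHom.id k) (hyp (s + 2) 1 J₀) →
        SGr (RingHom.id k) (hyp (s + 2) 1 J₀) (s + 2)),
      MassStmt (ltO h s ha μ₁ μ₂) (gau e (s + 2) (Subgroup.subtype _) bp bm) i)
    (hOne : ∀ [MeasurableSpace k] [BorelSpace k] {a : k} (ha : a ≠ 0) (_ : ‖a‖ < 1)
      (μ₁ : Measure k) (μ₂ : Measure (ι → k)) [μ₁.IsAddHaarMeasure] [μ₂.IsAddHaarMeasure],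
      OneStmt (ltO h s ha μ₁ μ₂)) :
    CoreAllE (EUF (RingHom.id k) 1 (hyp (s + 2) 1 J₀) ⧸
        Subgroup.center (EUF (RingHom.id k) 1 (hyp (s + 2) 1 J₀))) ∧
      OverStmt (EUF (RingHom.id k) 1 (hyp (s + 2) 1 J₀) ⧸
        Subgroup.center (EUF (RingHom.id k) 1 (hyp (s + 2) 1 J₀))) := by
  letI : MeasurableSpace k := borel k
  haveI : BorelSpace k := ⟨rfl⟩
  haveI := lc_EUF h s
  haveI := sc_EUF h s
  haveI := t2_EUF h s
  haveI : IsClosed (Subgroup.center (EUF (RingHom.id k) 1 (hyp (s + 2) 1 J₀)) :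
      Set (EUF (RingHom.id k) 1 (hyp (s + 2) 1 J₀))) := (finite_center_EUF h s).isClosed
  obtain ⟨a, ha0, ha1⟩ := NormedField.exists_norm_lt_one k
  have ha : a ≠ 0 := norm_pos_iff.1 ha0
  obtain ⟨g1, g2⟩ := hg ha ha1
  exact coreAllE_admO h ha Measure.addHaar Measure.addHaar hk (hG ha ha1 _ _)
    (admO h s ha _ _) (hs ha ha1 _ _) g1 g2
    (fun e bp bm => hM ha ha1 _ _ (admO h s ha _ _) e bp bm)
    (hOne ha ha1 _ _)

end cen

end Vale.Agent.P092.CL.T
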