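import Vale.Agent.P092.CLT.BrX
import Vale.Agent.P092.CLT.AsmS

/-!
P092, Team P, stages 2 and 3 (helper805), Track H, all amplifications and irreducible systems: the
legs with the relations of higher order for the letters `CL.lt`, and the assemblies `coreAllE_admX`,
`overStmt_admX` from the count `CntX` and the joint `OneStmtX` with the extra property.
-/

set_option linter.all false

open scoped InnerProductSpace ENNReal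
open Filter Topology MeasureTheory TopologicalSpace Matrix

namespace Vale.Agent.P092.CL.T

open Vale.Agent.P092.CL
open Vale.Agent.P092.H303 (FormGroup Idx hyp)
open Vale.Agent.P092.H714.Cl
open Vale.Agent.P092.H370.Po (SGr Inc Sing WI)
open Vale.Agent.P092.SNT (CoreAllE)
open Vale.Agent.P092.H933 (LeviGap LocK)
open Vale.Agent.P092.H632.T2 (gau)
open Vale.Agent.P092.H678.OV (OverStmt)
open Vale.Agent.P092.H99.CLX (Xtra OneStmtX XInv)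

section asm

variable {k : Type} [NontriviallyNormedField k] [ProperSpace k] [MeasurableSpace k]
  [BorelSpace k] {ι : Type} [Fintype ι] [DecidableEq ι] {s : ℕ} {σ : k →+* k}
  [Fact (Continuous σ)] {ε : k} {J₀ : Matrix ι ι k} {w : k} {E : Type} [Group E]
  [TopologicalSpace E] [IsTopologicalGroup E] [LocallyCompactSpace E]
  [SecondCountableTopology E] [T2Space E]

/-- the masses of the letters `lt` -/
theorem massStmt_lt' {i : FormGroup σ (hyp (s + 2) ε J₀) →* E} (hk : LocK k)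
    (hσn : ∀ x, ‖σ x‖ = ‖x‖) (hw : w ≠ 0) (hσ : σ w = w) (hw1 : ‖w‖ < 1) (μ₁ : Measure k)
    (μ₂ : Measure (V2 σ ε)) [μ₁.IsAddHaarMeasure] [μ₂.IsAddHaarMeasure]
    (hF : Frm σ ε (hyp (s + 2) ε J₀)) (hW : WI σ (hyp (s + 2) ε J₀) (s + 2))
    (hA : Adm (lt hF hw hσ μ₁ μ₂) i) {N : ℕ} (e : Idx (s + 2) ι ≃ Fin (N + 1))
    (bp : FormGroup σ (hyp (s + 2) ε J₀) → SGr σ (hyp (s + 2) ε J₀) 1)
    (bm : FormGroup σ (hyp (s + 2) ε J₀) → SGr σ (hyp (s + 2) ε J₀) (s + 2)) :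
    H21.C.MassStmt (lt hF hw hσ μ₁ μ₂) (gau e (s + 2) (MonoidHom.id _) bp bm) i := by
  have hG := geo hF hW hσn hw hσ hw1 μ₁ μ₂
  have h1 := @H21.C.massStmt_lt k _ _ _ ι _ _ s N σ ε J₀ _ hk hσn e hF hW w hw hσ hw1 μ₁ μ₂ hG
    (fun p hp => H874.CLAdm.hmg_frm hσn (frm_p hF hp)) bp bm E _ _ _ _ _ _ i hA
  exact @h1

/-- **[H-ENG]**, families, for the letters `lt` -/
theorem exHalfTW_lt {i : FormGroup σ (hyp (s + 2) ε J₀) →* E} (hk : LocK k)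
    (hσn : ∀ x, ‖σ x‖ = ‖x‖) (hw : w ≠ 0) (hσ : σ w = w) (hw1 : ‖w‖ < 1) (μ₁ : Measure k)
    (μ₂ : Measure (V2 σ ε)) [μ₁.IsAddHaarMeasure] [μ₂.IsAddHaarMeasure]
    (hF : Frm σ ε (hyp (s + 2) ε J₀)) (hW : WI σ (hyp (s + 2) ε J₀) (s + 2))
    (hA : Adm (lt hF hw hσ μ₁ μ₂) i) (g1 : LeviGap (lt hF hw hσ μ₁ μ₂).b1)
    (g2 : LeviGap (lt hF hw hσ μ₁ μ₂).b2) {N : ℕ} (e : Idx (s + 2) ι ≃ Fin (N + 1))
    {bp : FormGroup σ (hyp (s + 2) ε J₀) → SGr σ (hyp (s + 2) ε J₀) 1}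
    {bm : FormGroup σ (hyp (s + 2) ε J₀) → SGr σ (hyp (s + 2) ε J₀) (s + 2)}
    (hT : GauOk (lt hF hw hσ μ₁ μ₂) (gau e (s + 2) (MonoidHom.id _) bp bm)) :
    ExHalfTW (lt hF hw hσ μ₁ μ₂) (gau e (s + 2) (MonoidHom.id _) bp bm) i := by
  haveI := H71.CLG.v2_proper (ε := ε) hσn
  have hG := geo hF hW hσn hw hσ hw1 μ₁ μ₂
  have o1 : (lt hF hw hσ μ₁ μ₂).μ₁.IsOpenPosMeasure := inferInstanceAs μ₁.IsOpenPosMeasure
  have hM := @massStmt_lt' k _ _ _ _ ι _ _ s σ _ ε J₀ w E _ _ _ _ _ _ i hk hσn hw hσ hw1 μ₁ μ₂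
    _ _ hF hW hA N e bp bm
  apply exHalfTW_of hG hT (H923.CLI.ovlStmt hT hσn hW) hA
    (inferInstanceAs (IsFiniteMeasureOnCompacts μ₁))
    (inferInstanceAs (IsFiniteMeasureOnCompacts μ₂)) o1
    (H71.CLG.sprL hF hσn hw hσ hw1 μ₁ μ₂) (uniC_lt hσn hw hσ hw1 μ₁ μ₂ hF) g1 g2
  exact @hM

/-- **[H-ENG]**, irreducible systems, for the letters `lt` -/
theorem exStmtSW_lt {i : FormGroup σ (hyp (s + 2) ε J₀) →* E} (hk : LocK k)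
    (hσn : ∀ x, ‖σ x‖ = ‖x‖) (hw : w ≠ 0) (hσ : σ w = w) (hw1 : ‖w‖ < 1) (μ₁ : Measure k)
    (μ₂ : Measure (V2 σ ε)) [μ₁.IsAddHaarMeasure] [μ₂.IsAddHaarMeasure]
    (hF : Frm σ ε (hyp (s + 2) ε J₀)) (hW : WI σ (hyp (s + 2) ε J₀) (s + 2))
    (hA : Adm (lt hF hw hσ μ₁ μ₂) i) (g1 : LeviGap (lt hF hw hσ μ₁ μ₂).b1)
    (g2 : LeviGap (lt hF hw hσ μ₁ μ₂).b2) {N : ℕ} (e : Idx (s + 2) ι ≃ Fin (N + 1))
    {bp : FormGroup σ (hyp (s + 2) ε J₀) → SGr σ (hyp (s + 2) ε J₀) 1}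
    {bm : FormGroup σ (hyp (s + 2) ε J₀) → SGr σ (hyp (s + 2) ε J₀) (s + 2)}
    (hT : GauOk (lt hF hw hσ μ₁ μ₂) (gau e (s + 2) (MonoidHom.id _) bp bm)) :
    ExStmtSW (lt hF hw hσ μ₁ μ₂) (gau e (s + 2) (MonoidHom.id _) bp bm) i := by
  haveI := H71.CLG.v2_proper (ε := ε) hσn
  have hG := geo hF hW hσn hw hσ hw1 μ₁ μ₂
  have o1 : (lt hF hw hσ μ₁ μ₂).μ₁.IsOpenPosMeasure := inferInstanceAs μ₁.IsOpenPosMeasure
  have hM := @massStmt_lt' k _ _ _ _ ι _ _ s σ _ ε J₀ w E _ _ _ _ _ _ i hk hσn hw hσ hw1 μ₁ μ₂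
    _ _ hF hW hA N e bp bm
  apply exSW_of hG hT (H923.CLI.ovlStmt hT hσn hW) hA
    (inferInstanceAs (IsFiniteMeasureOnCompacts μ₁))
    (inferInstanceAs (IsFiniteMeasureOnCompacts μ₂)) o1
    (H71.CLG.sprL hF hσn hw hσ hw1 μ₁ μ₂) (uniC_lt hσn hw hσ hw1 μ₁ μ₂ hF) g1 g2
  exact @hM

variable {X : Xtra (SGr σ (hyp (s + 2) ε J₀) 1) (SGr σ (hyp (s + 2) ε J₀) (s + 2))}

/-- **`OverStmt` for every admissible source group**, from the count and the joint `OneStmtX`. -/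
theorem overStmt_admX {i : FormGroup σ (hyp (s + 2) ε J₀) →* E} (hk : LocK k)
    (hσn : ∀ x, ‖σ x‖ = ‖x‖) (hw : w ≠ 0) (hσ : σ w = w) (hw1 : ‖w‖ < 1) (μ₁ : Measure k)
    (μ₂ : Measure (V2 σ ε)) [μ₁.IsAddHaarMeasure] [μ₂.IsAddHaarMeasure]
    (hF : Frm σ ε (hyp (s + 2) ε J₀)) (hW : WI σ (hyp (s + 2) ε J₀) (s + 2))
    (hA : Adm (lt hF hw hσ μ₁ μ₂) i) (g1 : LeviGap (lt hF hw hσ μ₁ μ₂).b1)
    (g2 : LeviGap (lt hF hw hσ μ₁ μ₂).b2) {N : ℕ} (e : Idx (s + 2) ι ≃ Fin (N + 1))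
    {bp : FormGroup σ (hyp (s + 2) ε J₀) → SGr σ (hyp (s + 2) ε J₀) 1}
    {bm : FormGroup σ (hyp (s + 2) ε J₀) → SGr σ (hyp (s + 2) ε J₀) (s + 2)}
    (hT : GauOk (lt hF hw hσ μ₁ μ₂) (gau e (s + 2) (MonoidHom.id _) bp bm))
    (hC : CntX X (lt hF hw hσ μ₁ μ₂) (gau e (s + 2) (MonoidHom.id _) bp bm)) (hXA : XAmp X)
    (hOne : OneStmtX X (lt hF hw hσ μ₁ μ₂)) : OverStmt E := by
  have hG := geo hF hW hσn hw hσ hw1 μ₁ μ₂
  have h1 := @exStmtSW_lt k _ _ _ _ ι _ _ s σ _ ε J₀ w E _ _ _ _ _ _ i hk hσn hw hσ hw1 μ₁ μ₂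
    _ _ hF hW hA g1 g2 N e bp bm hT
  have h2 : ExStmtSX X (lt hF hw hσ μ₁ μ₂) i := exStmtSX_of_W hC h1
  exact overStmt_ofX e hF hW (Nat.le_add_left 2 s) hG hA (H325.CL.sc_lt e hF hw hσ μ₁ μ₂)
    (H325.CL.nmc_lt e hF hw hσ μ₁ μ₂) hOne hXA (clsStmt_lt e hF hW hw hσ μ₁ μ₂ hG)
    (naMono_lt hF hw hσ μ₁ μ₂) h2

/-- **The core, all amplifications, for every admissible source group**, from the count and the
joint `OneStmtX`. -/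
theorem coreAllE_admX {i : FormGroup σ (hyp (s + 2) ε J₀) →* E} (hk : LocK k)
    (hσn : ∀ x, ‖σ x‖ = ‖x‖) (hw : w ≠ 0) (hσ : σ w = w) (hw1 : ‖w‖ < 1) (μ₁ : Measure k)
    (μ₂ : Measure (V2 σ ε)) [μ₁.IsAddHaarMeasure] [μ₂.IsAddHaarMeasure]
    (hF : Frm σ ε (hyp (s + 2) ε J₀)) (hW : WI σ (hyp (s + 2) ε J₀) (s + 2))
    (hA : Adm (lt hF hw hσ μ₁ μ₂) i) (g1 : LeviGap (lt hF hw hσ μ₁ μ₂).b1)
    (g2 : LeviGap (lt hF hw hσ μ₁ μ₂).b2) {N : ℕ} (e : Idx (s + 2) ι ≃ Fin (N + 1))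
    {bp : FormGroup σ (hyp (s + 2) ε J₀) → SGr σ (hyp (s + 2) ε J₀) 1}
    {bm : FormGroup σ (hyp (s + 2) ε J₀) → SGr σ (hyp (s + 2) ε J₀) (s + 2)}
    (hT : GauOk (lt hF hw hσ μ₁ μ₂) (gau e (s + 2) (MonoidHom.id _) bp bm))
    (hC : CntX X (lt hF hw hσ μ₁ μ₂) (gau e (s + 2) (MonoidHom.id _) bp bm)) (hXA : XAmp X)
    (hXI : XInv X) (hOne : OneStmtX X (lt hF hw hσ μ₁ μ₂)) : CoreAllE E := by
  have hG := geo hF hW hσn hw hσ hw1 μ₁ μ₂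
  have h1 := @exHalfTW_lt k _ _ _ _ ι _ _ s σ _ ε J₀ w E _ _ _ _ _ _ i hk hσn hw hσ hw1 μ₁ μ₂
    _ _ hF hW hA g1 g2 N e bp bm hT
  have h2 : ExHalfTX X (lt hF hw hσ μ₁ μ₂) i := exHalfTX_of_W hC h1
  have h3 : ExStmtTX X (lt hF hw hσ μ₁ μ₂) i := exTX_of_half hXI h2
  exact coreAllE_ofX e hF hW (Nat.le_add_left 2 s) hG hA (H325.CL.sc_lt e hF hw hσ μ₁ μ₂)
    (H325.CL.nmc_lt e hF hw hσ μ₁ μ₂) hOne hXA (clsStmt_lt e hF hW hw hσ μ₁ μ₂ hG)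
    (naMono_lt hF hw hσ μ₁ μ₂) h3

omit [Fact (Continuous σ)] [MeasurableSpace k] [BorelSpace k] in
/-- **`PSU(J)` and `PSp(J)`**, Witt index `s + 2 ≥ 2`: the setting of the quotient by the centre;
everything from one statement about admissible source groups. -/
theorem cen_of (hσn : ∀ x, ‖σ x‖ = ‖x‖) (hF : Frm σ ε (hyp (s + 2) ε J₀))
    {C : Prop} (h : ∀ [MeasurableSpace k] [BorelSpace k] [Fact (Continuous σ)]
      [LocallyCompactSpace (FormGroup σ (hyp (s + 2) ε J₀) ⧸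
        Subgroup.center (FormGroup σ (hyp (s + 2) ε J₀)))]
      [SecondCountableTopology (FormGroup σ (hyp (s + 2) ε J₀) ⧸
        Subgroup.center (FormGroup σ (hyp (s + 2) ε J₀)))]
      [T2Space (FormGroup σ (hyp (s + 2) ε J₀) ⧸
        Subgroup.center (FormGroup σ (hyp (s + 2) ε J₀)))] {w : k} (hw : w ≠ 0)
      (hσ : σ w = w) (_ : ‖w‖ < 1) (μ₁ : Measure k) (μ₂ : Measure (V2 σ ε))
      [μ₁.IsAddHaarMeasure] [μ₂.IsAddHaarMeasure],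
      Adm (lt hF hw hσ μ₁ μ₂) (QuotientGroup.mk'
        (Subgroup.center (FormGroup σ (hyp (s + 2) ε J₀)))) → C) : C := by
  letI : MeasurableSpace k := borel k
  haveI : BorelSpace k := ⟨rfl⟩
  have hσc : Continuous σ := continuous_of_norm hσn
  haveI : Fact (Continuous σ) := ⟨hσc⟩
  haveI := H71.CLG.v2_proper (ε := ε) hσn
  haveI := H874.CLAdm.t2_quo hF (Z := Subgroup.center (FormGroup σ (hyp (s + 2) ε J₀))) le_rfl
  haveI := H874.CLAdm.lc_quo hσn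
    (Subgroup.center (FormGroup σ (hyp (s + 2) ε J₀)))
  haveI := H874.CLAdm.sc_quo (Subgroup.center (FormGroup σ (hyp (s + 2) ε J₀)))
  obtain ⟨r, hr, hr1⟩ := exists_fix hF hσn
  have hr0 : r ≠ 0 := by
    rintro rfl
    rw [norm_zero] at hr1
    linarith
  have hw : r⁻¹ ≠ 0 := inv_ne_zero hr0
  have hσ : σ r⁻¹ = r⁻¹ := by rw [map_inv₀, hr]
  have hw1 : ‖r⁻¹‖ < 1 := by
    rw [norm_inv]
    exact inv_lt_one_of_one_lt₀ hr1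
  have hA := H874.CLAdm.adm_cen hσn hF hw hσ (Measure.addHaar : Measure k)
    (Measure.addHaar : Measure (V2 σ ε))
  exact @h _ _ _ _ _ _ _ hw hσ hw1 Measure.addHaar Measure.addHaar _ _ hA

end asm

end Vale.Agent.P092.CL.T
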