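import Vale.Agent.P092.CLT.LegE
import Vale.Agent.P092.CL.BrW
import Vale.Agent.P092.H99.HT.Leg

/-!
P092, Team P, stages 2 and 3 (helper805), Track H, all amplifications: from the relations of
`HasLegFW` (engine, weighted count) to the predicate `Rl` (Lemma O for the letters of points).
-/

set_option linter.all false

open scoped InnerProductSpace ENNReal
open Filter Topology ContinuousLinearMap MeasureTheory TopologicalSpace

namespace Vale.Agent.P092.CL.T

open Vale.Agent.P092.CL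
open Vale.Agent.P092.H99.HT (HasLegRF ExHalfRT)

section br

variable {S P M V₁ V₂ : Type} [Group S] [MeasurableSpace V₁] [MeasurableSpace V₂]
  [TopologicalSpace S] [MulAction S P] [TopologicalSpace P] [CompactSpace P]
  [ContinuousConstSMul S P] [MulAction S M] [TopologicalSpace M] [CompactSpace M]
  [ContinuousConstSMul S M] [NormedAddCommGroup V₁] [NormedAddCommGroup V₂]
  {Rl : ∀ {K : Type} [NormedAddCommGroup K] [InnerProductSpace ℂ K],
      (C(P, ℂ) →ₗ[ℂ] (K →L[ℂ] K)) → Prop} {L : Lt S P M V₁ V₂} {T : Gau S P M}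

/-- **The bridge**, one leg of a family. -/
theorem HasLegFW.legR {E Γ K κ : Type} [Group E] [TopologicalSpace E] [Group Γ]
    [NormedAddCommGroup K] [InnerProductSpace ℂ K] [CompleteSpace K] [Fintype κ]
    {𝒰 : Ultrafilter ℕ} {ι : S →* E} {π : E →* (K →L[ℂ] K)} {lam : Γ →* (K →L[ℂ] K)}
    {W : Set (K →L[ℂ] K)} {Ω : κ → K} {m : Set Γ → (K →L[ℂ] K)} {q : Γ → S}
    (hC : CntW Rl L T) (h : HasLegFW L T 𝒰 ι π lam W Ω m q) :
    HasLegRF Rl L 𝒰 ι π lam W Ω m q := by
  obtain ⟨U11, p11, U12, p12, U21, p21, U22, p22, h, h1⟩ := h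
  exact ⟨U11, p11, U12, p12, U21, p21, U22, p22, h,
    fun c => hC q h.base.ph h.base.ud (U11 c) fun I _ u v hw => (h1 I u v hw).1 c,
    fun l => hC q h.base.ph h.base.ud (U21 l) fun I _ u v hw => (h1 I u v hw).2 l⟩

variable {E : Type} [Group E] [TopologicalSpace E] [IsTopologicalGroup E] [LocallyCompactSpace E]
  [SecondCountableTopology E] [T2Space E] {ι : S →* E}

/-- **The bridge**, first leg of the concrete picture, all amplifications. -/
theorem exHalfRT_of_W (hC : CntW Rl L T) (h : ExHalfTW L T ι) : ExHalfRT Rl L ι := by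
  intro _ _ Γ _ _ _ _ ν _ hν hΓ hicc Λ _ _ hΛ I _ α hα
  obtain ⟨𝒰, κ, _, Ω, m, q, h1, h2⟩ := h hν hΓ hicc hΛ hα
  exact ⟨𝒰, κ, inferInstance, Ω, m, q, HasLegFW.legR hC h1, h2⟩

end br

end Vale.Agent.P092.CL.T
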