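import Vale.Agent.P092.CLT.LegES
import Vale.Agent.P092.CLT.X.Defs
import Vale.Agent.P092.CL.BrW

/-!
P092, Team P, stages 2 and 3 (helper805), Track H, all amplifications and irreducible systems: from
the relations of `HasLegFW` (engine, weighted count) to the extra property `X` of helper99, helper21.
-/

set_option linter.all false

open scoped InnerProductSpace ENNReal
open Filter Topology ContinuousLinearMap MeasureTheory TopologicalSpace

namespace Vale.Agent.P092.CL.T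

open Vale.Agent.P092.CL
open Vale.Agent.P092.H99.CLX (Xtra)
open Vale.Agent.P092.H100.SU (O1 Sec1 Far1)

section br

variable {S P M V₁ V₂ : Type} [Group S] [MeasurableSpace V₁] [MeasurableSpace V₂]
  [TopologicalSpace S] [MulAction S P] [TopologicalSpace P] [CompactSpace P]
  [ContinuousConstSMul S P] [MulAction S M] [TopologicalSpace M] [CompactSpace M]
  [ContinuousConstSMul S M] [NormedAddCommGroup V₁] [NormedAddCommGroup V₂]

/-- **[H-CNT]** in the literal of the bridge, extra property of the letters of points -/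
def CntX (X : Xtra P M) (L : Lt S P M V₁ V₂) (T : Gau S P M) : Prop :=
  ∀ {Γ K : Type} [Group Γ] [NormedAddCommGroup K] [InnerProductSpace ℂ K] [CompleteSpace K]
    (q : Γ → S), L.PH q → L.UD q →
    ∀ (U : P → (C(P, ℂ) →ₗ[ℂ] (K →L[ℂ] K))) (V : M → (C(P, ℂ) →ₗ[ℂ] (K →L[ℂ] K))),
      (∀ (I : Type) [Fintype I] (u v : I → C(P, ℂ)), WC L T q u v →
        (∀ c, ∑ i, U c (u i) * U c (v i) = 0) ∧ ∀ l, ∑ i, V l (u i) * V l (v i) = 0) → X U V

theorem cntX_of_cnt {Rl : ∀ {K : Type} [NormedAddCommGroup K] [InnerProductSpace ℂ K],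
      (C(P, ℂ) →ₗ[ℂ] (K →L[ℂ] K)) → Prop} {L : Lt S P M V₁ V₂} {T : Gau S P M}
    (h : CntW Rl L T) :
    CntX (fun {K} _ _ _ U V => (∀ c, Rl (U c)) ∧ ∀ l, Rl (V l)) L T := by
  intro Γ K _ _ _ _ q h1 h2 U V hU
  exact ⟨fun c => h q h1 h2 (U c) fun I _ u v hw => (hU I u v hw).1 c,
    fun l => h q h1 h2 (V l) fun I _ u v hw => (hU I u v hw).2 l⟩

variable {X : Xtra P M} {L : Lt S P M V₁ V₂} {T : Gau S P M}

/-- **The bridge**, one leg of a family. -/
theorem HasLegFW.legX {E Γ K κ : Type} [Group E] [TopologicalSpace E] [Group Γ]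
    [NormedAddCommGroup K] [InnerProductSpace ℂ K] [CompleteSpace K] [Fintype κ]
    {𝒰 : Ultrafilter ℕ} {ι : S →* E} {π : E →* (K →L[ℂ] K)} {lam : Γ →* (K →L[ℂ] K)}
    {W : Set (K →L[ℂ] K)} {Ω : κ → K} {m : Set Γ → (K →L[ℂ] K)} {q : Γ → S}
    (hC : CntX X L T) (h : HasLegFW L T 𝒰 ι π lam W Ω m q) :
    HasLegFX X L 𝒰 ι π lam W Ω m q := by
  obtain ⟨U11, p11, U12, p12, U21, p21, U22, p22, h, h1⟩ := h
  exact ⟨U11, p11, U12, p12, U21, p21, U22, p22, h,
    hC q h.base.ph h.base.ud U11 U21 fun I _ u v hw => h1 I u v hw⟩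

variable {E : Type} [Group E] [TopologicalSpace E] [IsTopologicalGroup E] [LocallyCompactSpace E]
  [SecondCountableTopology E] [T2Space E] {ι : S →* E}

/-- **The bridge**, first leg of the concrete picture, all amplifications. -/
theorem exHalfTX_of_W (hC : CntX X L T) (h : ExHalfTW L T ι) : ExHalfTX X L ι := by
  intro _ _ Γ _ _ _ _ ν _ hν hΓ hicc Λ _ _ hΛ I _ α hα
  obtain ⟨𝒰, κ, _, Ω, m, q, h1, h2⟩ := h hν hΓ hicc hΛ hα
  exact ⟨𝒰, κ, inferInstance, Ω, m, q, HasLegFW.legX hC h1, h2⟩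

/-- **The bridge**, both legs of an irreducible system. -/
theorem exStmtSX_of_W (hC : CntX X L T) (h : ExStmtSW L T ι) : ExStmtSX X L ι := by
  intro _ _ Γ _ _ _ _ ν _ hν hicc ℋ _ _ _ V R₁ R₂ hy hV
  obtain ⟨𝒰, κ₁, κ₂, _, _, Ω₁, Ω₂, m₁, m₂, q₁, q₂, h1, h2, h3, h4⟩ := h hν hicc hy hV
  exact ⟨𝒰, κ₁, κ₂, inferInstance, inferInstance, Ω₁, Ω₂, m₁, m₂, q₁, q₂, HasLegFW.legX hC h1,
    HasLegFW.legX hC h2, h3, h4⟩

end br

end Vale.Agent.P092.CL.T
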