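import Vale.Agent.P092.CLT.AsmO
import Vale.Agent.P092.CL.GeoO
import Vale.Agent.P092.UN.NfO
import Vale.Agent.P092.H289.O6
import Vale.Agent.P092.H534.Or.MassO
import Vale.Agent.P092.H956.FmG10

/-!
P092, TEAM P, stage CL-O, all amplifications (helper21, after CL/FinO of helper387): `CoreAllE` and
`OverStmt` for `Ω(J) ⧸ centre`, every local field, every Witt index `s + 2`, from
`OneStmt (ltO ..)` alone.
-/

set_option linter.all false

open scoped InnerProductSpace ENNReal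
open Filter Topology MeasureTheory TopologicalSpace Matrix

namespace Vale.Agent.P092.CL.T

open Vale.Agent.P092.CL
open Vale.Agent.P092.H303 (FormGroup Idx hyp)
open Vale.Agent.P092.H714.Cl
open Vale.Agent.P092.H370.Po (SGr Inc Sing WI)
open Vale.Agent.P092.SNT (CoreAllE)
open Vale.Agent.P092.H933 (LeviGap LocK)
open Vale.Agent.P092.H678.OV (OverStmt)

section fin

variable {k : Type} [NontriviallyNormedField k] [ProperSpace k] {ι : Type} [Fintype ι]
  [DecidableEq ι] {J₀ : Matrix ι ι k}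

/-- **[CL-O], all amplifications and irreducible systems**, from the joint `OneStmt`. -/
theorem coreAll_orth (hk : LocK k) (h : OF J₀) (s : ℕ)
    (hOne : ∀ [MeasurableSpace k] [BorelSpace k] {a : k} (ha : a ≠ 0) (_ : ‖a‖ < 1)
      (μ₁ : Measure k) (μ₂ : Measure (ι → k)) [μ₁.IsAddHaarMeasure] [μ₂.IsAddHaarMeasure],
      OneStmt (ltO h s ha μ₁ μ₂)) :
    CoreAllE (EUF (RingHom.id k) 1 (hyp (s + 2) 1 J₀) ⧸
        Subgroup.center (EUF (RingHom.id k) 1 (hyp (s + 2) 1 J₀))) ∧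
      OverStmt (EUF (RingHom.id k) 1 (hyp (s + 2) 1 J₀) ⧸
        Subgroup.center (EUF (RingHom.id k) 1 (hyp (s + 2) 1 J₀))) := by
  haveI : Fact (Continuous (RingHom.id k)) := ⟨continuous_id⟩
  refine coreAllE_cenO hk h (fun ha ha1 μ₁ μ₂ => geoO h ha ha1 μ₁ μ₂) ?_
    (fun ha _ => ⟨H956.gapO_b1 h s ha, H956.gapO_b2 h s ha⟩) ?_ hOne
  · intro _ _ a ha ha1 μ₁ μ₂ _ _
    exact H289.O6.sprL h s ha ha1 μ₁ μ₂
  · intro _ _ a ha ha1 μ₁ μ₂ _ _ E _ _ _ _ _ _ i hA N e bp bm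
    exact H534.Or.massStmt_ltO h ha1 hk e (h.wi s) (geoO h ha ha1 μ₁ μ₂) hA

/-- `Ω(J) ⧸ centre` is not compact. -/
theorem nc_orth (h : OF J₀) (s : ℕ) :
    NoncompactSpace (EUF (RingHom.id k) 1 (hyp (s + 2) 1 J₀) ⧸
      Subgroup.center (EUF (RingHom.id k) 1 (hyp (s + 2) 1 J₀))) := by
  letI : MeasurableSpace k := borel k
  haveI : BorelSpace k := ⟨rfl⟩
  haveI := lc_EUF h s
  haveI := sc_EUF h s
  haveI := t2_EUF h s
  haveI : IsClosed (Subgroup.center (EUF (RingHom.id k) 1 (hyp (s + 2) 1 J₀)) :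
      Set (EUF (RingHom.id k) 1 (hyp (s + 2) 1 J₀))) := (finite_center_EUF h s).isClosed
  obtain ⟨a, ha0, ha1⟩ := NormedField.exists_norm_lt_one k
  have ha : a ≠ 0 := norm_pos_iff.1 ha0
  haveI : Fact (Continuous (RingHom.id k)) := ⟨continuous_id⟩
  exact ncE (geoO h ha ha1 Measure.addHaar Measure.addHaar) (admO h s ha _ _)

end fin

end Vale.Agent.P092.CL.T
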