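import Vale.Agent.P092.CL.FinO3
import Vale.Agent.P092.UN.NfOV

/-!
P092, TEAM P, stage CL-O (helper21): orthogonal groups of every Witt index at least two, kernel not
empty, over non-archimedean local fields of characteristic not two: all amplifications, and the
ICC groups with a subgroup of finite index in the class `LatticeO`, without hypotheses.
-/

set_option linter.all false

open Filter Topology MeasureTheory TopologicalSpace Matrix

namespace Vale.Agent.P092.CL.T

open Vale.Agent.P092.CL
open Vale.Agent.P092.H303 (FormGroup Idx hyp)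
open Vale.Agent.P092.SNT (CoreAllE)
open Vale.Agent.P092.H678.OV (OverStmt)

section fin

variable {k : Type} [NontriviallyNormedField k] [ProperSpace k] {ι : Type} [Fintype ι]
  [DecidableEq ι] {J₀ : Matrix ι ι k}

/-- **The core for `Ω(J) ⧸ centre`**: every Witt index at least two, every amplification, and
irreducible systems. -/
theorem coreAll_orthAll [IsUltrametricDist k] (h : OF J₀) (s : ℕ) :
    CoreAllE (EUF (RingHom.id k) 1 (hyp (s + 2) 1 J₀) ⧸
        Subgroup.center (EUF (RingHom.id k) 1 (hyp (s + 2) 1 J₀))) ∧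
      OverStmt (EUF (RingHom.id k) 1 (hyp (s + 2) 1 J₀) ⧸
        Subgroup.center (EUF (RingHom.id k) 1 (hyp (s + 2) 1 J₀))) := by
  refine coreAll_orth (.ultra inferInstance) h s ?_
  intro _ _ a ha ha1 μ₁ μ₂ _ _
  exact @one_orth _ _ _ _ _ _ _ _ _ _ h s _ ha ha1 μ₁ μ₂ _ _

end fin

end Vale.Agent.P092.CL.T

namespace Vale.Agent.P092.UN

open Vale.Agent.P092.H678.OV (HasOver superAll_virt)

/-- **W*-superrigidity, all amplifications, of the ICC lattices in the orthogonal groups
`[SO(J), SO(J)]`** of Witt index at least two (kernel not empty) over non-archimedean local fields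
of characteristic not two, modulo central subgroups. -/
theorem latticeO_superAll : ∀ (Γ : Type) [Group Γ], LatticeO Γ → SuperAll Γ :=
  superAll_latticeO fun k _ _ _ ι _ _ J₀ s h => (CL.T.coreAll_orthAll h s).1

/-- the class `LatticeO` has the interface `HasOver` -/
theorem hasOver_latticeO : ∀ (Γ : Type) [Group Γ], LatticeO Γ → HasOver Γ := by
  rintro Γ _ ⟨hicc, E, _, _, i, ht, hi, hl⟩
  obtain ⟨k, _, ι, _, _, J₀, s, hp, hu, hO, hNC⟩ := nf_typeO ht
  exact hasOver_orth hO (CL.T.coreAll_orthAll hO s).2 hNC hicc i hi hl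

/-- **All ICC groups with a subgroup of finite index in the class `LatticeO`.** -/
theorem virt_latticeO {Γ : Type} [Group Γ] (hicc : ICC Γ) {Γ₀ : Subgroup Γ}
    (hfi : Γ₀.FiniteIndex) (h : LatticeO Γ₀) : SuperAll Γ :=
  superAll_virt hicc hfi (hasOver_latticeO Γ₀ h)

end Vale.Agent.P092.UN
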