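import Vale.Agent.P092.CL.FinR
import Vale.Agent.P092.UN.NfOV

/-!
P092, TEAM P, stage CL-O over `ℝ` (helper21, after CL/FinR of helper142 and helper387):
`SO(2, n)`, `n ≥ 3`: all amplifications, and the ICC groups with a subgroup of finite index in the
class `LatticeOR`, without hypotheses.
-/

set_option linter.all false

open Filter Topology MeasureTheory TopologicalSpace Matrix

namespace Vale.Agent.P092.CL.T

open Vale.Agent.P092.CL
open Vale.Agent.P092.H303 (FormGroup Idx hyp)
open Vale.Agent.P092.SNT (CoreAllE)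
open Vale.Agent.P092.H678.OV (OverStmt)

section fin

variable {ι : Type} [Fintype ι] [DecidableEq ι] {J₀ : Matrix ι ι ℝ}

/-- **The core for `SO(2, n)`**: every amplification, and irreducible systems. -/
theorem coreAll_orthR (h : OF J₀) :
    CoreAllE (EUF (RingHom.id ℝ) 1 (hyp (0 + 2) 1 J₀) ⧸
        Subgroup.center (EUF (RingHom.id ℝ) 1 (hyp (0 + 2) 1 J₀))) ∧
      OverStmt (EUF (RingHom.id ℝ) 1 (hyp (0 + 2) 1 J₀) ⧸
        Subgroup.center (EUF (RingHom.id ℝ) 1 (hyp (0 + 2) 1 J₀))) := by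
  refine coreAll_orth (.real (RingEquiv.refl ℝ) fun _ => rfl) h 0 ?_
  intro m hb a ha ha1 μ₁ μ₂ _ _
  have e : m = Real.measurableSpace := hb.measurable_eq.trans Real.borelSpace.measurable_eq.symm
  subst e
  have key : OneStmt (ltO h 0 ha μ₁ μ₂) := one_orthR h ha ha1 μ₁ μ₂
  exact @key

end fin

end Vale.Agent.P092.CL.T

namespace Vale.Agent.P092.UN

open Vale.Agent.P092.H678.OV (HasOver superAll_virt)

/-- **W*-superrigidity, all amplifications, of the ICC lattices in `SO(2, n)`**, `n ≥ 3`, modulo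
central subgroups. -/
theorem latticeOR_superAll : ∀ (Γ : Type) [Group Γ], LatticeOR Γ → SuperAll Γ :=
  superAll_latticeOR fun ι _ _ J₀ h => (CL.T.coreAll_orthR h).1

/-- the class `LatticeOR` has the interface `HasOver` -/
theorem hasOver_latticeOR : ∀ (Γ : Type) [Group Γ], LatticeOR Γ → HasOver Γ := by
  rintro Γ _ ⟨hicc, E, _, _, i, ht, hi, hl⟩
  obtain ⟨ι, _, _, J₀, hO, hNC⟩ := nf_typeOR ht
  exact hasOver_orth hO (CL.T.coreAll_orthR hO).2 hNC hicc i hi hl

/-- **All ICC groups with a subgroup of finite index in the class `LatticeOR`.** -/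
theorem virt_latticeOR {Γ : Type} [Group Γ] (hicc : ICC Γ) {Γ₀ : Subgroup Γ}
    (hfi : Γ₀.FiniteIndex) (h : LatticeOR Γ₀) : SuperAll Γ :=
  superAll_virt hicc hfi (hasOver_latticeOR Γ₀ h)

end Vale.Agent.P092.UN
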