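import Vale.Agent.P092.CLT.Asm
import Vale.Agent.P092.CLT.AsmS
import Vale.Agent.P092.CL.One
import Vale.Agent.P092.UN.NfUT

/-!
P092, TEAM P, stages 2 and 3, all amplifications: the conclusion of Q1 for the ICC lattices of the
class `LatticeU`: symplectic and unitary groups of Witt index at least two over non-archimedean local
fields.
-/

set_option linter.all false

open Filter Topology MeasureTheory TopologicalSpace Matrix

namespace Vale.Agent.P092.CL.T

open Vale.Agent.P092.H303 (FormGroup Idx hyp)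
open Vale.Agent.P092.H714.Cl
open Vale.Agent.P092.H85.CU (NfD)
open Vale.Agent.P092.SNT (CoreAllE)
open Vale.Agent.P092.H678.OV (OverStmt)

variable {k : Type} [NontriviallyNormedField k] [ProperSpace k] [IsUltrametricDist k]
  {ι : Type} [Fintype ι] [DecidableEq ι] {s : ℕ} {σ : k →+* k} {ε : k} {J₀ : Matrix ι ι k}

/-- **The core for `PSp(J)` and `PSU(J)`**, all amplifications. -/
theorem coreAll_nfD (h : NfD σ ε J₀ s) : CoreAllE (FormGroup σ (hyp (s + 2) ε J₀) ⧸
      Subgroup.center (FormGroup σ (hyp (s + 2) ε J₀))) := by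
  have hk : H933.LocK k := .ultra inferInstance
  refine coreAllE_cen hk h.hn h.frm h.wi
    (fun hw hσ hw1 => H71.CLP.gap_lt h.frm h.hn hk hw hσ hw1 h.two) ?_
  intro _ _ _ w hw hσ hw1 μ₁ μ₂ _ _
  exact one_nfD h hw hσ hw1 μ₁ μ₂

/-- **The core for all systems for `PSp(J)` and `PSU(J)`.** -/
theorem over_nfD (h : NfD σ ε J₀ s) : OverStmt (FormGroup σ (hyp (s + 2) ε J₀) ⧸
      Subgroup.center (FormGroup σ (hyp (s + 2) ε J₀))) := by
  have hk : H933.LocK k := .ultra inferInstance
  refine overStmt_cen hk h.hn h.frm h.wi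
    (fun hw hσ hw1 => H71.CLP.gap_lt h.frm h.hn hk hw hσ hw1 h.two) ?_
  intro _ _ _ w hw hσ hw1 μ₁ μ₂ _ _
  exact one_nfD h hw hσ hw1 μ₁ μ₂

end Vale.Agent.P092.CL.T

namespace Vale.Agent.P092.UN

/-- **The conclusion of Q1 for the ICC lattices of the class `LatticeU`.** -/
theorem latticeU_superAll : ∀ (Γ : Type) [Group Γ], LatticeU Γ → SuperAll Γ :=
  superAll_latticeU fun k _ _ _ σ ε ι _ _ J₀ s h => CL.T.coreAll_nfD h

end Vale.Agent.P092.UN
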