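import Vale.Agent.P092.CLT.FinUV
import Vale.Agent.P092.CL.AsmC
import Vale.Agent.P092.H411.S2.WalLt
import Vale.Agent.P092.H780.Gap6
import Vale.Agent.P092.UN.NfU2

/-!
P092 (helper85): `SU(J)` of Witt index two over non-archimedean local fields of any characteristic
(characteristic two included): the core statements, the class `LatticeU2` and its overgroups of
finite index.
-/

set_option linter.all false

open Filter Topology MeasureTheory TopologicalSpace Matrix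

namespace Vale.Agent.P092.CL.T

open Vale.Agent.P092.CL
open Vale.Agent.P092.H303 (FormGroup Idx hyp)
open Vale.Agent.P092.H714.Cl
open Vale.Agent.P092.UN (NfH)
open Vale.Agent.P092.SN (CoreE)
open Vale.Agent.P092.SNT (CoreAllE)
open Vale.Agent.P092.H678.OV (OverStmt)

section core

variable {k : Type} [NontriviallyNormedField k] [ProperSpace k] [IsUltrametricDist k]
  {ι : Type} [Fintype ι] [DecidableEq ι] {σ : k →+* k} {ε : k} {J₀ : Matrix ι ι k}

/-- one leg is straight and everything commutes -/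
theorem one_nfH [MeasurableSpace k] [BorelSpace k] [Fact (Continuous σ)] (h : NfH σ ε J₀) {w : k}
    (hw : w ≠ 0) (hσ : σ w = w) (hw1 : ‖w‖ < 1) (μ₁ : Measure k) (μ₂ : Measure (V2 σ ε))
    [μ₁.IsAddHaarMeasure] [μ₂.IsAddHaarMeasure] : OneStmt (lt h.frm hw hσ μ₁ μ₂) := by
  have hk : H933.LocK k := .ultra inferInstance
  have han : ∀ v, hf σ J₀ v v = 0 → v = 0 := fun v hv => by
    by_contra hv0
    exact h.an v hv0 hv
  have h3 : H99.CL.Count1Stmt (lt (s := 0) h.frm hw hσ μ₁ μ₂) :=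
    H261.K3.count1_lt h.frm hw hσ μ₁ μ₂ h.hn h.wi
  have h4 : H99.CL.Count2Stmt (lt (s := 0) h.frm hw hσ μ₁ μ₂) :=
    H337.C3.count2Stmt hk h.frm han hw hσ μ₁ μ₂
  intro E Γ K _ _ _ _ _ _ 𝒰 ι' π lam W Ω m q hl
  exact one_lt2 h.hn hw hσ hw1 μ₁ μ₂ h.frm h.wi (Or.inr (Or.inr h.ne)) h3 h4 𝒰 ι' π lam W Ω m q hl

/-- **The core for `PSU(J)`**, all amplifications. -/
theorem coreAll_nfH (h : NfH σ ε J₀) : CoreAllE (FormGroup σ (hyp (0 + 2) ε J₀) ⧸
      Subgroup.center (FormGroup σ (hyp (0 + 2) ε J₀))) := by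
  have hk : H933.LocK k := .ultra inferInstance
  refine coreAllE_cen hk h.hn h.frm h.wi
    (fun hw hσ hw1 => H780.gap_lt h.hn h.frm h.gt (Or.inl h.ne) hw hσ) ?_
  intro _ _ _ w hw hσ hw1 μ₁ μ₂ _ _
  exact one_nfH h hw hσ hw1 μ₁ μ₂

/-- **The core for all systems for `PSU(J)`.** -/
theorem over_nfH (h : NfH σ ε J₀) : OverStmt (FormGroup σ (hyp (0 + 2) ε J₀) ⧸
      Subgroup.center (FormGroup σ (hyp (0 + 2) ε J₀))) := by
  have hk : H933.LocK k := .ultra inferInstance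
  refine overStmt_cen hk h.hn h.frm h.wi
    (fun hw hσ hw1 => H780.gap_lt h.hn h.frm h.gt (Or.inl h.ne) hw hσ) ?_
  intro _ _ _ w hw hσ hw1 μ₁ μ₂ _ _
  exact one_nfH h hw hσ hw1 μ₁ μ₂

omit [IsUltrametricDist k] in
/-- `SU(J) ⧸ centre` is not compact -/
theorem nc_nfH (h : NfH σ ε J₀) : NoncompactSpace (FormGroup σ (hyp (0 + 2) ε J₀) ⧸
    Subgroup.center (FormGroup σ (hyp (0 + 2) ε J₀))) := by
  letI : MeasurableSpace k := borel k
  haveI : BorelSpace k := ⟨rfl⟩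
  haveI : Fact (Continuous σ) := ⟨continuous_of_norm h.hn⟩
  haveI := H71.CLG.v2_proper (ε := ε) h.hn
  obtain ⟨r, hr, hr1⟩ := exists_fix h.frm h.hn
  have hr0 : r ≠ 0 := by
    rintro rfl
    rw [norm_zero] at hr1
    linarith
  have hw : r⁻¹ ≠ 0 := inv_ne_zero hr0
  have hσ : σ r⁻¹ = r⁻¹ := by rw [map_inv₀, hr]
  have hw1 : ‖r⁻¹‖ < 1 := by
    rw [norm_inv]
    exact inv_lt_one_of_one_lt₀ hr1
  exact nc_E (geo h.frm h.wi h.hn hw hσ hw1 Measure.addHaar Measure.addHaar)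
    (H874.CLAdm.adm_cen h.hn h.frm hw hσ _ _)

end core

end Vale.Agent.P092.CL.T

namespace Vale.Agent.P092.UN

open Vale.Agent.P092.H303 (FormGroup Idx hyp)
open Vale.Agent.P092.H714.Cl
open Vale.Agent.P092.H684.Psp (lat_nc)
open Vale.Agent.P092.H678.OV (HasOver hasOver_of superAll_hasOver superAll_virt)

/-- the class `LatticeU2` has the interface `HasOver` -/
theorem hasOver_latticeU2 : ∀ (Γ : Type) [Group Γ], LatticeU2 Γ → HasOver Γ := by
  rintro Γ _ ⟨hicc, E, _, _, i, ht, hi, hl⟩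
  obtain ⟨k, _, σ, ι, _, _, J₀, hp, hu, hD, hNC⟩ := nf_typeU2 ht
  haveI := H874.CLAdm.t2_quo hD.frm
    (Z := Subgroup.center (FormGroup σ (hyp (0 + 2) 1 J₀))) le_rfl
  haveI := H874.CLAdm.lc_quo hD.hn (Subgroup.center (FormGroup σ (hyp (0 + 2) 1 J₀)))
  haveI := H874.CLAdm.sc_quo (Subgroup.center (FormGroup σ (hyp (0 + 2) 1 J₀)))
  haveI := CL.T.nc_nfH hD
  obtain ⟨i', hi', hl'⟩ := lat_nc hNC hicc i hi ((isLattice_iff _).1 hl)
  exact hasOver_of (CL.T.over_nfH hD) i' hi' hl'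

/-- **The conclusion of Q1 for the class `LatticeU2`.** -/
theorem latticeU2_superAll (Γ : Type) [Group Γ] (h : LatticeU2 Γ) : SuperAll Γ :=
  superAll_hasOver h.1 (hasOver_latticeU2 Γ h)

end Vale.Agent.P092.UN
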