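import Vale.Agent.P092.CLT.FinU
import Vale.Agent.P092.UN.NfUV

/-!
P092, [OV] (helper958): the ICC groups with a subgroup of finite index in the class `LatticeU`, all
amplifications, without hypotheses.
-/

set_option linter.all false

namespace Vale.Agent.P092.UN

open Vale.Agent.P092.H678.OV (HasOver superAll_virt)

/-- the class `LatticeU` has the interface `HasOver` -/
theorem hasOver_latticeU : ∀ (Γ : Type) [Group Γ], LatticeU Γ → HasOver Γ :=
  hasOver_latticeU_of fun k _ _ _ σ ε ι _ _ J₀ s h => CL.T.over_nfD h

/-- **All ICC groups with a subgroup of finite index in the class `LatticeU`.** -/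
theorem virt_latticeU {Γ : Type} [Group Γ] (hicc : ICC Γ) {Γ₀ : Subgroup Γ}
    (hfi : Γ₀.FiniteIndex) (h : LatticeU Γ₀) : SuperAll Γ :=
  superAll_virt hicc hfi (hasOver_latticeU Γ₀ h)

end Vale.Agent.P092.UN
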