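import Vale.Agent.P092.H21.C.ExT
import Vale.Agent.P092.CL.LegE
import Vale.Agent.P092.CL.UniC
import Vale.Agent.P092.SPC.RelG

/-!
P092, Team P, stages 2 and 3 (helper805), [H-ENG], all amplifications: the first leg of the honest
family over an admissible source group, together with the relations of higher order (helper486,
helper421) of the two families of points; every record `L : Lt`.
-/

set_option linter.all false

open scoped InnerProductSpace ENNReal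
open Filter Topology ContinuousLinearMap MeasureTheory TopologicalSpace

namespace Vale.Agent.P092.CL.T

open Vale.Agent.P092.H160 Vale.Agent.P092.SR
open Vale.Agent.P092.RC (PicF adjV3)
open Vale.Agent.P092.SD (Ms MsF)
open Vale.Agent.P092.SNT (TVEF)
open Vale.Agent.P092.H933 (LeviGap LocK)
open Vale.Agent.P092.CL
open Vale.Agent.P092.H34.HMK (mX)
open Vale.Agent.P092.H34.Ind (Xset)
open Vale.Agent.P092.H859.CL (st Leg Slow)
open Vale.Agent.P092.H43 (Loc2)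
open Vale.Agent.P092.H71.CLO (SprL prp_adm)
open Vale.Agent.P092.H103 (AF)
open Vale.Agent.P092.H85 (cdat)
open Vale.Agent.P092.H962 (HH PT V3 A3R B3R)
open Vale.Agent.P092.H21.C
open Vale.Agent.P092.H21

section defs

variable {S P M V₁ V₂ : Type} [Group S] [MeasurableSpace V₁] [MeasurableSpace V₂]
  [TopologicalSpace S] [MulAction S P] [TopologicalSpace P] [CompactSpace P]
  [ContinuousConstSMul S P] [MulAction S M] [TopologicalSpace M] [CompactSpace M]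
  [ContinuousConstSMul S M] [NormedAddCommGroup V₁] [NormedAddCommGroup V₂]

/-- the data of one leg of a family, with the relations of higher order between the letters of
points -/
def HasLegFW {E Γ K κ : Type} [Group E] [TopologicalSpace E] [Group Γ] [NormedAddCommGroup K]
    [InnerProductSpace ℂ K] [CompleteSpace K] [Fintype κ] (L : Lt S P M V₁ V₂) (T : Gau S P M)
    (𝒰 : Ultrafilter ℕ) (ι : S →* E) (π : E →* (K →L[ℂ] K)) (lam : Γ →* (K →L[ℂ] K))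
    (W : Set (K →L[ℂ] K)) (Ω : κ → K) (m : Set Γ → (K →L[ℂ] K)) (q : Γ → S) : Prop :=
  ∃ (U11 : P → (C(P, ℂ) →ₗ[ℂ] (K →L[ℂ] K))) (p11 : ℝ)
    (U12 : P → (C(M, ℂ) →ₗ[ℂ] (K →L[ℂ] K))) (p12 : ℝ)
    (U21 : M → (C(P, ℂ) →ₗ[ℂ] (K →L[ℂ] K))) (p21 : ℝ)
    (U22 : M → (C(M, ℂ) →ₗ[ℂ] (K →L[ℂ] K))) (p22 : ℝ),
    LegPF L 𝒰 ι π lam W Ω m q U11 p11 U12 p12 U21 p21 U22 p22 ∧
      ∀ (J : Type) [Fintype J] (u v : J → C(P, ℂ)), WC L T q u v →
        (∀ c, ∑ i, U11 c (u i) * U11 c (v i) = 0) ∧ ∀ l, ∑ i, U21 l (u i) * U21 l (v i) = 0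

/-- **[CL-HALF-T]** the first leg, with the relations of higher order. -/
def ExHalfTW (L : Lt S P M V₁ V₂) (T : Gau S P M) {E : Type} [Group E] [TopologicalSpace E]
    [IsTopologicalGroup E] [LocallyCompactSpace E] [SecondCountableTopology E] [T2Space E]
    (ι : S →* E) : Prop :=
  ∀ [MeasurableSpace E] [BorelSpace E] {Γ : Subgroup E} [DiscreteTopology Γ] [Countable Γ]
    [MeasurableSpace (E ⧸ Γ)] [BorelSpace (E ⧸ Γ)] {ν : Measure (E ⧸ Γ)}
    [IsProbabilityMeasure ν] (hν : ∀ g : E, ν.map (fun x => g • x) = ν)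
    (_ : H515.St.IsLattice Γ) (_ : ∀ g : Γ, g ≠ 1 → Set.Infinite {y : Γ | ∃ h, y = h * g * h⁻¹})
    {Λ : Type} [Group Λ] [Countable Λ]
    (_ : ∀ g : Λ, g ≠ 1 → Set.Infinite {y : Λ | ∃ h, y = h * g * h⁻¹})
    {I : Type} [Fintype I] {α : Γ → (Ell2 (I × Λ) →L[ℂ] Ell2 (I × Λ))} (hα : AF α),
    ∃ (𝒰 : Ultrafilter ℕ) (κ : Type) (_ : Fintype κ)
      (Ω : κ → Lp (HH (PT α α α)) 2 (cdat ν hν).μ)
      (m : Set Γ → (Lp (HH (PT α α α)) 2 (cdat ν hν).μ →L[ℂ]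
        Lp (HH (PT α α α)) 2 (cdat ν hν).μ)) (q : Γ → S),
      HasLegFW L T 𝒰 ι (H34.Ind.pi (cdat ν hν) (V := V3 hα hα hα) (adjV3 hα))
        (H34.Ind.lam (cdat ν hν) (A3R hα hα hα))
        (H34.Ind.Xset (cdat ν hν) (HH (PT α α α)) ∪
          Set.range (H34.Ind.lam (cdat ν hν) (B3R hα hα hα))) Ω m q ∧
      (∀ γ, q γ ∈ L.Z → γ = 1)

end defs

section leg

variable {S P M V₁ V₂ : Type} [Group S] [MeasurableSpace V₁] [MeasurableSpace V₂]
  {L : Lt S P M V₁ V₂} [TopologicalSpace S] [MulAction S P] [TopologicalSpace P] [CompactSpace P]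
  [ContinuousConstSMul S P] [MulAction S M] [TopologicalSpace M] [CompactSpace M]
  [ContinuousConstSMul S M] [NormedAddCommGroup V₁] [NormedAddCommGroup V₂]
  [ProperSpace V₁] [BorelSpace V₁]
  {E Γ K κ : Type} [Group E] [TopologicalSpace E] [IsTopologicalGroup E]
  [LocallyCompactSpace E] [SecondCountableTopology E] [T2Space E] [Group Γ]
  [NormedAddCommGroup K] [InnerProductSpace ℂ K] [CompleteSpace K] [Fintype κ] {ι : S →* E}
  {π : E →* (K →L[ℂ] K)} {lam : Γ →* (K →L[ℂ] K)} {W : Set (K →L[ℂ] K)} {Ω : κ → K}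
  {mp : (Γ → ℝ) → (K →L[ℂ] K)} {Bd Bf : Set K} {ms : E → Set Γ → ℝ} {q : Γ → S}
  {𝒰 : Ultrafilter ℕ} {T : Gau S P M} {v0 : K}

/-- **One leg**, families of vectors, with the relations of higher order for the letters of
points. -/
theorem legFW_of (hG : Geo L) (hT : GauOk L T) (hO : OvlStmt L T)
    (f1 : IsFiniteMeasureOnCompacts L.μ₁) (o1 : L.μ₁.IsOpenPosMeasure) (hu : UniC L)
    (hb : PBF L 𝒰 ι π lam W Ω (st mp) q) (hL : Leg mp (fun g => π g) (fun γ => lam γ) W)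
    (hS : Slow mp (fun g => π g) Bd) (hloc : Loc2 mp (fun g => π g) Bd Bf) (hv : ‖v0‖ = 1)
    (hW1 : Wal mp π Bd ms T q v0 (ι L.b1)) (hW2 : Wal mp π Bd ms T q v0 (ι L.b2)) :
    HasLegFW L T 𝒰 ι π lam W Ω (st mp) q := by
  have h := hb.adm
  have h𝒰 := hb.h𝒰
  obtain ⟨U11, p11, U12, p12, U21, p21, U22, p22, H, F11, F21⟩ := legQE_of (q := q) hG hT hO h h𝒰
    hb.pic hb.ms hb.ph hb.fin hb.nis1 hb.nis2 hL hS hloc hv hW1 hW2
  refine ⟨U11, p11, U12, p12, U21, p21, U22, p22,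
    { base := hb
      u11 := H.u11
      u12 := H.u12
      u21 := H.u21
      u22 := H.u22
      s1 := H.s1
      s2 := H.s2
      i11 := H.i11
      i12 := H.i12 }, fun J _ u v hC => ?_⟩
  have hz0 : ∀ γ, 0 < L.nm (q γ) := fun γ => hG.nm_pos _
  have hz : ∀ γ, ∃ d : ℝ, 1 ≤ d ∧ ∀ y, L.nm (q (γ * y)) ≤ d * L.nm (q y) := fun γ => by
    obtain ⟨C, hC0, hC⟩ := hG.nm_mul
    refine ⟨max 1 (C * L.nm (q γ)), le_max_left _ _, fun y => ?_⟩
    obtain ⟨z, hz, e⟩ := hb.ph γ y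
    rw [e, hG.z_nm z hz]
    refine (hC _ _).trans ?_
    rw [← mul_assoc]
    exact mul_le_mul_of_nonneg_right (le_max_right _ _) (hz0 y).le
  have hnc : Tendsto (fun x : V₁ => ι (L.u1 x)) (𝓝 0) (𝓝 1) := by
    have h1 : Continuous fun x : V₁ => ι (L.u1 x) := h.cι.comp hG.u1c
    have h3 := h1.tendsto 0
    rwa [hG.u10, map_one] at h3
  obtain ⟨ρ1, r1, r1', q1⟩ := hb.orb1
  obtain ⟨ρ2, r2, r2', q2⟩ := hb.orb2'
  have s11 := H486.Eng.sysF_cn hW1.s1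
  have s21 := H486.Eng.sysF_cn hW2.s1
  have x1 : ∀ (g : S) (x : P), letI := actE h hG.z_P; ι g • x = g • x := actE_ι h hG.z_P
  have x2 : ∀ (g : S) (x : M), letI := actE h hG.z_M; ι g • x = g • x := actE_ι h hG.z_M
  have t1 : letI := actE h hG.z_P; ∀ z : P, ∃ g : E, g • L.p0 = z := fun z => by
    obtain ⟨l, hl⟩ := hG.ex1 z
    obtain ⟨g, hg, -⟩ := hG.flag z l hl
    exact ⟨ι g, (x1 g _).trans hg⟩
  have t2 : letI := actE h hG.z_M; ∀ z : M, ∃ g : E, g • L.m0 = z := fun z => by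
    obtain ⟨x, hx⟩ := hG.ex2 z
    obtain ⟨g, -, hg⟩ := hG.flag x z hx
    exact ⟨ι g, (x2 g _).trans hg⟩
  constructor
  · letI := actE h hG.z_P
    letI := actQ hb.ph hG.z_P
    exact SPC.rel_sameF hb.pic hb.ms hb.uc s11 hL hW1.esc h𝒰 F11 t1 r1 r1' hnc q1
      (uni_push h.cι hu.1) hz0 hz hb.size1 hC
  · letI := actE h hG.z_M
    letI := actQ hb.ph hG.z_P
    exact SPC.rel_sameF hb.pic hb.ms hb.uc s21 hL hW2.esc h𝒰 F21 t2 r2 r2' hnc q2
      (uni_push h.cι hu.2) hz0 hz hb.size2 hC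

end leg

section hh

variable {S P M V₁ V₂ : Type} [Group S] [MeasurableSpace V₁] [MeasurableSpace V₂]
  {L : Lt S P M V₁ V₂} [TopologicalSpace S] [MulAction S P] [TopologicalSpace P] [CompactSpace P]
  [ContinuousConstSMul S P] [MulAction S M] [TopologicalSpace M] [CompactSpace M]
  [ContinuousConstSMul S M] [NormedAddCommGroup V₁] [NormedAddCommGroup V₂]
  [ProperSpace V₁] [ProperSpace V₂] [BorelSpace V₁] [BorelSpace V₂]
  {E : Type} [Group E] [TopologicalSpace E] [IsTopologicalGroup E] [LocallyCompactSpace E]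
  [SecondCountableTopology E] [T2Space E] [MeasurableSpace E] [BorelSpace E] {ι : S →* E}
  {Γ : Subgroup E} [DiscreteTopology Γ] [Countable Γ] [MeasurableSpace (E ⧸ Γ)]
  [BorelSpace (E ⧸ Γ)] {ν : Measure (E ⧸ Γ)} [IsProbabilityMeasure ν]
  (hν : ∀ g : E, ν.map (fun x => g • x) = ν)
  (hΓ : ∀ g : Γ, g ≠ 1 → Set.Infinite {y : Γ | ∃ h, y = h * g * h⁻¹})
  {Λ : Type} [Group Λ] [Countable Λ]
  (hΛ : ∀ s : Λ, s ≠ 1 → Set.Infinite {y : Λ | ∃ h, y = h * s * h⁻¹})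
  {I : Type} [Fintype I] {α : Γ → (Ell2 (I × Λ) →L[ℂ] Ell2 (I × Λ))} (hα : AF α)
  {κ : Type} [Fintype κ] {ξ : κ → HH (PT α α α)}
  (hT : Tri (V3 hα hα hα) (A3R hα hα hα) (B3R hα hα hα) ξ)

include hΓ hΛ in
/-- **The first leg of the model, all `t`, with the relations of higher order.** -/
theorem legFW_HH (hh : Hon (A3R hα hα hα) (B3R hα hα hα) ξ) (hG : Geo L) {T : Gau S P M}
    (hT0 : GauOk L T) (hO : OvlStmt L T) (h : Adm L ι)
    (f1 : IsFiniteMeasureOnCompacts L.μ₁) (f2 : IsFiniteMeasureOnCompacts L.μ₂)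
    (o1 : L.μ₁.IsOpenPosMeasure) (hs : SprL L) (hu : UniC L)
    {𝒰 : Ultrafilter ℕ} (h𝒰 : (𝒰 : Filter ℕ) ≤ atTop) (g1 : LeviGap (ι L.b1))
    (g2 : LeviGap (ι L.b2)) (hM : MassStmt L T ι) {q : Γ → S} (hq : ∀ γ, ι (q γ) = γ) :
    HasLegFW L T 𝒰 ι (H34.Ind.pi (H85.cdat ν hν) (V := V3 hα hα hα) (adjV3 hα))
      (H34.Ind.lam (H85.cdat ν hν) (A3R hα hα hα))
      (Xset (H85.cdat ν hν) (HH (PT α α α)) ∪
        Set.range (H34.Ind.lam (H85.cdat ν hν) (B3R hα hα hα)))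
      (H34.AmpE.nrm hν ξ) (st (mT (H85.cdat ν hν) hT)) q := by
  haveI := ncE hG h
  have hb := pbF_HH hν hΓ hΛ hα hT hh hG h f1 f2 hs h𝒰 g1 g2 hq
  have hx := H962.exists_tri' hα hα hα hΛ
  refine Exists.elim hx fun m' hx => Exists.elim hx fun m'' hx => Exists.elim hx fun ζ h' => ?_
  have hW := hM hν hT hh h' hΓ (H34.HMK.picE_HH hν hΓ hΛ hα hT) (H34.HMK.tvE_HH hν hα hT) q hq
    hb.ph hb.fin
  obtain ⟨c, i, hv⟩ := exists_v0 hν hT
  have w1 := wal_T hν hT hΓ h' hh hT0 hb.ph (coc_b1 hG h) hW.1.n1 hW.1.n2 hW.1.ty c i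
  have w2 := wal_T hν hT hΓ h' hh hT0 hb.ph (coc_b2 hG h) hW.2.n1 hW.2.n2 hW.2.ty c i
  exact legFW_of hG hT0 hO f1 o1 hu hb (leg_T (H85.cdat ν hν) hT hh hΓ h')
    (slow_T (H85.cdat ν hν) hT hΓ h' hh (H43.ccont_cdat ν hν))
    (loc2_T (H85.cdat ν hν) hT hΓ h' hh) hv w1 w2

end hh

/-- **[CL-HALF-T], with the relations of higher order.** -/
theorem exHalfTW_of {S P M V₁ V₂ : Type} [Group S] [MeasurableSpace V₁] [MeasurableSpace V₂]
    {L : Lt S P M V₁ V₂} [TopologicalSpace S] [MulAction S P] [TopologicalSpace P]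
    [CompactSpace P] [ContinuousConstSMul S P] [MulAction S M] [TopologicalSpace M]
    [CompactSpace M] [ContinuousConstSMul S M] [NormedAddCommGroup V₁] [NormedAddCommGroup V₂]
    [ProperSpace V₁] [ProperSpace V₂] [BorelSpace V₁] [BorelSpace V₂]
    {E : Type} [Group E] [TopologicalSpace E] [IsTopologicalGroup E] [LocallyCompactSpace E]
    [SecondCountableTopology E] [T2Space E] {ι : S →* E} (hG : Geo L) {T : Gau S P M}
    (hT : GauOk L T) (hO : OvlStmt L T) (h : Adm L ι)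
    (f1 : IsFiniteMeasureOnCompacts L.μ₁) (f2 : IsFiniteMeasureOnCompacts L.μ₂)
    (o1 : L.μ₁.IsOpenPosMeasure) (hs : SprL L) (hu : UniC L)
    (g1 : LeviGap L.b1) (g2 : LeviGap L.b2) (hM : MassStmt L T ι) : ExHalfTW L T ι := by
  intro _ _ Γ _ _ _ _ ν _ hν hΓ hicc Λ _ _ hΛ I _ α hα
  haveI := hG.tg
  have hq : ∀ γ : Γ, ι (Function.surjInv h.sur (γ : E)) = γ := fun γ =>
    Function.surjInv_eq h.sur _
  obtain ⟨n, ξ, hT', hh⟩ := H458.Hon.hon hα hα hΛ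
  exact ⟨hyperfilter ℕ, Fin n, inferInstance, H34.AmpE.nrm hν ξ, st (mT (H85.cdat ν hν) hT'),
    fun γ => Function.surjInv h.sur (γ : E),
    legFW_HH hν hicc hΛ hα hT' hh hG hT hO h f1 f2 o1 hs hu Nat.hyperfilter_le_atTop
      (H684.Psp.leviGap_proper ι h.cι h.sur g1) (H684.Psp.leviGap_proper ι h.cι h.sur g2) hM hq,
    inj_lift hG h hq hicc⟩

end Vale.Agent.P092.CL.T
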