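import Vale.Agent.P092.H21.S.Over
import Vale.Agent.P092.CLT.LegE

/-!
P092, Team P, stages 2 and 3 (helper805), [OV], Track H: the legs of an irreducible system (helper678,
helper21) together with the relations of higher order; every record `L : Lt`.
-/

set_option linter.all false

open scoped InnerProductSpace ENNReal
open Filter Topology ContinuousLinearMap MeasureTheory TopologicalSpace

namespace Vale.Agent.P092.CL.T

open Vale.Agent.P092.H160 Vale.Agent.P092.SR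
open Vale.Agent.P092.SNT (TVEF tv_tri)
open Vale.Agent.P092.H933 (LeviGap)
open Vale.Agent.P092.CL
open Vale.Agent.P092.H34.Ind (Xset)
open Vale.Agent.P092.H859.CL (st)
open Vale.Agent.P092.H71.CLO (SprL)
open Vale.Agent.P092.H678.OV (Sys)
open Vale.Agent.P092.H21.C
open Vale.Agent.P092.H21
open Vale.Agent.P092.H21.S (pbF_S)

section leg

variable {S P M V₁ V₂ : Type} [Group S] [MeasurableSpace V₁] [MeasurableSpace V₂]
  {L : Lt S P M V₁ V₂} [TopologicalSpace S] [MulAction S P] [TopologicalSpace P] [CompactSpace P]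
  [ContinuousConstSMul S P] [MulAction S M] [TopologicalSpace M] [CompactSpace M]
  [ContinuousConstSMul S M] [NormedAddCommGroup V₁] [NormedAddCommGroup V₂]
  [ProperSpace V₁] [ProperSpace V₂] [BorelSpace V₁] [BorelSpace V₂]
  {E : Type} [Group E] [TopologicalSpace E] [IsTopologicalGroup E] [LocallyCompactSpace E]
  [SecondCountableTopology E] [T2Space E] [MeasurableSpace E] [BorelSpace E] {ι : S →* E}
  {Γ : Subgroup E} [DiscreteTopology Γ] [Countable Γ] [MeasurableSpace (E ⧸ Γ)]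
  [BorelSpace (E ⧸ Γ)] {ν : Measure (E ⧸ Γ)} [IsProbabilityMeasure ν]
  (hν : ∀ g : E, ν.map (fun x => g • x) = ν)
  (hΓ : ∀ g : Γ, g ≠ 1 → Set.Infinite {y : Γ | ∃ h, y = h * g * h⁻¹})
  {ℋ : Type} [NormedAddCommGroup ℋ] [InnerProductSpace ℂ ℋ] [CompleteSpace ℋ]
  {V R₁ R₂ : Γ →* (ℋ →L[ℂ] ℋ)} (hy : Sys V R₁ R₂)
  {κ κ' : Type} [Fintype κ] [Fintype κ'] {ξ : κ → ℋ} (hT : Tri V R₁ R₂ ξ) (hh : Hon R₁ R₂ ξ)
  {ζ : κ' → ℋ} (h' : Tri R₁ V R₂ ζ)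

include hy hΓ hh h' in
/-- **The first leg of a system, with the relations of higher order.** -/
theorem legFW_S (hG : Geo L) {T : Gau S P M}
    (hT0 : GauOk L T) (hO : OvlStmt L T) (h : Adm L ι)
    (f1 : IsFiniteMeasureOnCompacts L.μ₁) (f2 : IsFiniteMeasureOnCompacts L.μ₂)
    (o1 : L.μ₁.IsOpenPosMeasure) (hs : SprL L) (hu : UniC L)
    {𝒰 : Ultrafilter ℕ} (h𝒰 : (𝒰 : Filter ℕ) ≤ atTop) (g1 : LeviGap (ι L.b1))
    (g2 : LeviGap (ι L.b2)) (hM : MassStmt L T ι) {q : Γ → S} (hq : ∀ γ, ι (q γ) = γ) :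
    HasLegFW L T 𝒰 ι (H34.Ind.pi (H85.cdat ν hν) (V := V) hT.adjV)
      (H34.Ind.lam (H85.cdat ν hν) R₁)
      (Xset (H85.cdat ν hν) ℋ ∪ Set.range (H34.Ind.lam (H85.cdat ν hν) R₂))
      (H34.AmpE.nrm hν ξ) (st (mT (H85.cdat ν hν) hT)) q := by
  haveI := ncE hG h
  have hb := pbF_S hν hΓ hy hT hh h' hG h f1 f2 hs h𝒰 g1 g2 hq
  obtain ⟨I', hI, ⟨b⟩⟩ := H264.Amp.exists_basis (H264.Amp.pars_of_tri hT)
  have hW := hM hν hT hh h' hΓ hb.pic (tv_tri hν hT.adjV b hT) q hq hb.ph hb.fin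
  obtain ⟨c, i, hv⟩ := exists_v0 hν hT
  have w1 := wal_T hν hT hΓ h' hh hT0 hb.ph (coc_b1 hG h) hW.1.n1 hW.1.n2 hW.1.ty c i
  have w2 := wal_T hν hT hΓ h' hh hT0 hb.ph (coc_b2 hG h) hW.2.n1 hW.2.n2 hW.2.ty c i
  exact legFW_of hG hT0 hO f1 o1 hu hb (leg_T (H85.cdat ν hν) hT hh hΓ h')
    (slow_T (H85.cdat ν hν) hT hΓ h' hh (H43.ccont_cdat ν hν))
    (loc2_T (H85.cdat ν hν) hT hΓ h' hh) hv w1 w2

end leg

/-- **[CL-EX-S]**, with the relations of higher order: both legs of an irreducible system. -/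
def ExStmtSW {S P M V₁ V₂ : Type} [Group S] [MeasurableSpace V₁] [MeasurableSpace V₂]
    [TopologicalSpace S] [MulAction S P] [TopologicalSpace P] [CompactSpace P]
    [ContinuousConstSMul S P] [MulAction S M] [TopologicalSpace M] [CompactSpace M]
    [ContinuousConstSMul S M] [NormedAddCommGroup V₁] [NormedAddCommGroup V₂]
    (L : Lt S P M V₁ V₂) (T : Gau S P M) {E : Type} [Group E] [TopologicalSpace E]
    [IsTopologicalGroup E] [LocallyCompactSpace E] [SecondCountableTopology E] [T2Space E]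
    (ι : S →* E) : Prop :=
  ∀ [MeasurableSpace E] [BorelSpace E] {Γ : Subgroup E} [DiscreteTopology Γ] [Countable Γ]
    [MeasurableSpace (E ⧸ Γ)] [BorelSpace (E ⧸ Γ)] {ν : Measure (E ⧸ Γ)}
    [IsProbabilityMeasure ν] (hν : ∀ g : E, ν.map (fun x => g • x) = ν)
    (_ : ∀ g : Γ, g ≠ 1 → Set.Infinite {y : Γ | ∃ h, y = h * g * h⁻¹})
    {ℋ : Type} [NormedAddCommGroup ℋ] [InnerProductSpace ℂ ℋ] [CompleteSpace ℋ]
    {V R₁ R₂ : Γ →* (ℋ →L[ℂ] ℋ)} (_ : Sys V R₁ R₂) (hV : ∀ v, adjoint (V v) = V v⁻¹),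
    ∃ (𝒰 : Ultrafilter ℕ) (κ₁ κ₂ : Type) (_ : Fintype κ₁) (_ : Fintype κ₂)
      (Ω₁ : κ₁ → Lp ℋ 2 (H85.cdat ν hν).μ) (Ω₂ : κ₂ → Lp ℋ 2 (H85.cdat ν hν).μ)
      (m₁ m₂ : Set Γ → (Lp ℋ 2 (H85.cdat ν hν).μ →L[ℂ] Lp ℋ 2 (H85.cdat ν hν).μ)) (q₁ q₂ : Γ → S),
      HasLegFW L T 𝒰 ι (H34.Ind.pi (H85.cdat ν hν) (V := V) hV)
        (H34.Ind.lam (H85.cdat ν hν) R₁)
        (Xset (H85.cdat ν hν) ℋ ∪ Set.range (H34.Ind.lam (H85.cdat ν hν) R₂)) Ω₁ m₁ q₁ ∧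
      HasLegFW L T 𝒰 ι (H34.Ind.pi (H85.cdat ν hν) (V := V) hV)
        (H34.Ind.lam (H85.cdat ν hν) R₂)
        (Xset (H85.cdat ν hν) ℋ ∪ Set.range (H34.Ind.lam (H85.cdat ν hν) R₁)) Ω₂ m₂ q₂ ∧
      (∀ γ, q₁ γ ∈ L.Z → γ = 1) ∧ (∀ γ, q₂ γ ∈ L.Z → γ = 1)

/-- **Both legs of a system, with the relations of higher order.** -/
theorem exSW_of {S P M V₁ V₂ : Type} [Group S] [MeasurableSpace V₁] [MeasurableSpace V₂]
    {L : Lt S P M V₁ V₂} [TopologicalSpace S] [MulAction S P] [TopologicalSpace P]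
    [CompactSpace P] [ContinuousConstSMul S P] [MulAction S M] [TopologicalSpace M]
    [CompactSpace M] [ContinuousConstSMul S M] [NormedAddCommGroup V₁] [NormedAddCommGroup V₂]
    [ProperSpace V₁] [ProperSpace V₂] [BorelSpace V₁] [BorelSpace V₂]
    {E : Type} [Group E] [TopologicalSpace E] [IsTopologicalGroup E] [LocallyCompactSpace E]
    [SecondCountableTopology E] [T2Space E] {ι : S →* E} (hG : Geo L) {T : Gau S P M}
    (hT : GauOk L T) (hO : OvlStmt L T) (h : Adm L ι)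
    (f1 : IsFiniteMeasureOnCompacts L.μ₁) (f2 : IsFiniteMeasureOnCompacts L.μ₂)
    (o1 : L.μ₁.IsOpenPosMeasure) (hs : SprL L) (hu : UniC L)
    (g1 : LeviGap L.b1) (g2 : LeviGap L.b2) (hM : MassStmt L T ι) : ExStmtSW L T ι := by
  intro _ _ Γ _ _ _ _ ν _ hν hicc ℋ _ _ _ V R₁ R₂ hy hV
  haveI := hG.tg
  have hq : ∀ γ : Γ, ι (Function.surjInv h.sur (γ : E)) = γ := fun γ =>
    Function.surjInv_eq h.sur _
  have G1 := H684.Psp.leviGap_proper ι h.cι h.sur g1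
  have G2 := H684.Psp.leviGap_proper ι h.cι h.sur g2
  obtain ⟨κ₁, _, ξ₁, hT₁, hh₁⟩ := hy.t₁
  obtain ⟨κ₂, _, ξ₂, hT₂, hh₂⟩ := hy.t₂
  obtain ⟨κ₃, _, ζ₁, h₁⟩ := hy.g₁
  obtain ⟨κ₄, _, ζ₂, h₂⟩ := hy.g₂
  exact ⟨hyperfilter ℕ, κ₁, κ₂, inferInstance, inferInstance, _, _, _, _,
    fun γ => Function.surjInv h.sur (γ : E), fun γ => Function.surjInv h.sur (γ : E),
    legFW_S hν hicc hy hT₁ hh₁ h₁ hG hT hO h f1 f2 o1 hs hu Nat.hyperfilter_le_atTop G1 G2 hM hq,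
    legFW_S hν hicc hy.swap hT₂ hh₂ h₂ hG hT hO h f1 f2 o1 hs hu Nat.hyperfilter_le_atTop G1 G2
      hM hq,
    inj_lift hG h hq hicc, inj_lift hG h hq hicc⟩

end Vale.Agent.P092.CL.T
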