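import Vale.Agent.P092.H958.O.CLo
import Vale.Agent.P092.CLT.Main

/-!
P092, [OV] (helper958): the core for all irreducible systems, `OverStmt E`, for every source group `E`
with letters `CL.Lt` over a group of isometries.
-/

set_option linter.all false

open scoped InnerProductSpace ENNReal LinearAlgebra.Projectivization ZeroAtInfty
open Filter Topology ContinuousLinearMap MeasureTheory TopologicalSpace

namespace Vale.Agent.P092.CL.T

open Vale.Agent.P092.CL
open Vale.Agent.P092.H303 (FormGroup)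
open Vale.Agent.P092.H370.Po
open Vale.Agent.P092.H714.Cl (hf Frm)
open Vale.Agent.P092.H416.CL (pt rho EP)
open Vale.Agent.P092.H325.CL (Sc Nmc ph_rho fin_rho xcCL)
open Vale.Agent.P092.H85 (cdat)
open Vale.Agent.P092.H678.OV (Sys OverV OverStmt Icc)
open Vale.Agent.P092.H958.OV (HalfO pic2F_sys)
open Vale.Agent.P092.SR (Tri)

variable {n : Type} [Fintype n] [DecidableEq n] {k : Type} [NontriviallyNormedField k]
  [ProperSpace k] {σ : k →+* k} [Fact (Continuous σ)] {ε : k} {J : Matrix n n k} {N r : ℕ}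
  {M V₁ V₂ : Type} [MeasurableSpace V₁] [MeasurableSpace V₂] [NormedAddCommGroup V₁]
  [NormedAddCommGroup V₂] [OpensMeasurableSpace V₁] [OpensMeasurableSpace V₂]
  [TopologicalSpace M] [CompactSpace M] [MulAction (FormGroup σ J) M]
  [ContinuousConstSMul (FormGroup σ J) M] {L : Lt (FormGroup σ J) (SGr σ J 1) M V₁ V₂}

/-- **[OV], groups of isometries**: the inputs of `coreAllE_of` with the legs of all systems. -/
theorem overStmt_of {E : Type} [Group E] [TopologicalSpace E] [IsTopologicalGroup E]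
    [LocallyCompactSpace E] [SecondCountableTopology E] [T2Space E] {ι : FormGroup σ J →* E}
    (e : n ≃ Fin (N + 1)) (hF : Frm σ ε J) (hW : WI σ J r) (hr : 2 ≤ r) (hG : Geo L)
    (hA : Adm L ι) (hZ : Sc e L) (hN : Nmc e L) (hOne : OneStmt L) (hCls : ClsStmt e L)
    (hNA : NAMono L) (hEx : HalfO L ι) : OverStmt E := by
  intro Γ hΓ hicc ℋ _ _ _ V R₁ R₂ hs
  letI : MeasurableSpace E := borel _
  haveI : BorelSpace E := ⟨rfl⟩
  haveI hd : DiscreteTopology Γ := hΓ.disc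
  haveI hc : Countable Γ := H790.countable_of_discrete (E := E) Γ
  letI : MeasurableSpace (E ⧸ Γ) := borel _
  haveI : BorelSpace (E ⧸ Γ) := ⟨rfl⟩
  obtain ⟨ν, hP', hν⟩ := H515.IsLattice.exists_prob (Λ := Γ) ⟨hΓ.disc, hΓ.covol⟩
  obtain ⟨κ, _, ξ, hT, hh⟩ := hs.t₁
  obtain ⟨B, hB, ⟨b⟩⟩ := hs.basis
  have p2 := pic2F_sys hν hs hT.adjV hT
  have tv := SNT.tv_tri hν hT.adjV b hT
  obtain ⟨κ₁, _, Ω₁, m₁, q₁, l1, i1⟩ := hEx (Γ := Γ) hν hicc hT.adjV hs
  obtain ⟨κ₂, _, Ω₂, m₂, q₂, l2, i2⟩ := hEx (Γ := Γ) hν hicc hT.adjV hs.swap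
  obtain ⟨Q₁, Q₂, h1, h2, h12⟩ := clegs_of e hF hW hr hG hA hZ hN hOne hCls hNA p2 tv l1 l2 i1 i2
    l1.base.ph l2.base.ph l1.base.fin l2.base.fin
  exact H264.Amp.over_of_legs hν hT (X := H34.Ind.Xset (cdat ν hν) ℋ)
    (fun S hS => ⟨S, hS, rfl⟩) h1 h2 h12

end Vale.Agent.P092.CL.T
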