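import Vale.Agent.P092.CLT.LegES
import Vale.Agent.P092.CLT.BrW
import Vale.Agent.P092.H99.HT.Main

/-!
P092, Team P, stages 2 and 3 (helper805), [OV], Track H: `OverStmt E` from the legs of all
irreducible systems with a further predicate `Rl` of the letters of points (Lemma O).
-/

set_option linter.all false

open scoped InnerProductSpace ENNReal
open Filter Topology ContinuousLinearMap MeasureTheory TopologicalSpace

namespace Vale.Agent.P092.CL.T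

open Vale.Agent.P092.H160 Vale.Agent.P092.SR
open Vale.Agent.P092.SNT (TVEF tv_tri)
open Vale.Agent.P092.CL
open Vale.Agent.P092.H34.Ind (Xset)
open Vale.Agent.P092.H678.OV (Sys OverStmt)
open Vale.Agent.P092.H458.OV (pic2_of)
open Vale.Agent.P092.H303 (FormGroup)
open Vale.Agent.P092.H325.CL (Sc Nmc)
open Vale.Agent.P092.H714.Cl (Frm)
open Vale.Agent.P092.H370.Po
open Vale.Agent.P092.H616.HA (OneStmtR)
open Vale.Agent.P092.H99.HT (HasLegRF AmpR clegs_ofR)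

/-- both legs of an irreducible system, with the predicate `Rl` -/
def ExStmtSR {S P M V₁ V₂ : Type} [Group S] [MeasurableSpace V₁] [MeasurableSpace V₂]
    [TopologicalSpace S] [MulAction S P] [TopologicalSpace P] [CompactSpace P]
    [ContinuousConstSMul S P] [MulAction S M] [TopologicalSpace M] [CompactSpace M]
    [ContinuousConstSMul S M] [NormedAddCommGroup V₁] [NormedAddCommGroup V₂]
    (Rl : ∀ {K : Type} [NormedAddCommGroup K] [InnerProductSpace ℂ K],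
      (C(P, ℂ) →ₗ[ℂ] (K →L[ℂ] K)) → Prop)
    (L : Lt S P M V₁ V₂) {E : Type} [Group E] [TopologicalSpace E]
    [IsTopologicalGroup E] [LocallyCompactSpace E] [SecondCountableTopology E] [T2Space E]
    (ι : S →* E) : Prop :=
  ∀ [MeasurableSpace E] [BorelSpace E] {Γ : Subgroup E} [DiscreteTopology Γ] [Countable Γ]
    [MeasurableSpace (E ⧸ Γ)] [BorelSpace (E ⧸ Γ)] {ν : Measure (E ⧸ Γ)}
    [IsProbabilityMeasure ν] (hν : ∀ g : E, ν.map (fun x => g • x) = ν)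
    (_ : ∀ g : Γ, g ≠ 1 → Set.Infinite {y : Γ | ∃ h, y = h * g * h⁻¹})
    {ℋ : Type} [NormedAddCommGroup ℋ] [InnerProductSpace ℂ ℋ] [CompleteSpace ℋ]
    {V R₁ R₂ : Γ →* (ℋ →L[ℂ] ℋ)} (_ : Sys V R₁ R₂) (hV : ∀ v, adjoint (V v) = V v⁻¹),
    ∃ (𝒰 : Ultrafilter ℕ) (κ₁ κ₂ : Type) (_ : Fintype κ₁) (_ : Fintype κ₂)
      (Ω₁ : κ₁ → Lp ℋ 2 (H85.cdat ν hν).μ) (Ω₂ : κ₂ → Lp ℋ 2 (H85.cdat ν hν).μ)
      (m₁ m₂ : Set Γ → (Lp ℋ 2 (H85.cdat ν hν).μ →L[ℂ] Lp ℋ 2 (H85.cdat ν hν).μ)) (q₁ q₂ : Γ → S),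
      HasLegRF Rl L 𝒰 ι (H34.Ind.pi (H85.cdat ν hν) (V := V) hV)
        (H34.Ind.lam (H85.cdat ν hν) R₁)
        (Xset (H85.cdat ν hν) ℋ ∪ Set.range (H34.Ind.lam (H85.cdat ν hν) R₂)) Ω₁ m₁ q₁ ∧
      HasLegRF Rl L 𝒰 ι (H34.Ind.pi (H85.cdat ν hν) (V := V) hV)
        (H34.Ind.lam (H85.cdat ν hν) R₂)
        (Xset (H85.cdat ν hν) ℋ ∪ Set.range (H34.Ind.lam (H85.cdat ν hν) R₁)) Ω₂ m₂ q₂ ∧
      (∀ γ, q₁ γ ∈ L.Z → γ = 1) ∧ (∀ γ, q₂ γ ∈ L.Z → γ = 1)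

section br

variable {S P M V₁ V₂ : Type} [Group S] [MeasurableSpace V₁] [MeasurableSpace V₂]
  [TopologicalSpace S] [MulAction S P] [TopologicalSpace P] [CompactSpace P]
  [ContinuousConstSMul S P] [MulAction S M] [TopologicalSpace M] [CompactSpace M]
  [ContinuousConstSMul S M] [NormedAddCommGroup V₁] [NormedAddCommGroup V₂]
  {Rl : ∀ {K : Type} [NormedAddCommGroup K] [InnerProductSpace ℂ K],
      (C(P, ℂ) →ₗ[ℂ] (K →L[ℂ] K)) → Prop} {L : Lt S P M V₁ V₂} {T : Gau S P M}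
  {E : Type} [Group E] [TopologicalSpace E] [IsTopologicalGroup E] [LocallyCompactSpace E]
  [SecondCountableTopology E] [T2Space E] {ι : S →* E}

/-- **The bridge**, both legs of an irreducible system. -/
theorem exStmtSR_of_W (hC : CntW Rl L T) (h : ExStmtSW L T ι) : ExStmtSR Rl L ι := by
  intro _ _ Γ _ _ _ _ ν _ hν hicc ℋ _ _ _ V R₁ R₂ hy hV
  obtain ⟨𝒰, κ₁, κ₂, _, _, Ω₁, Ω₂, m₁, m₂, q₁, q₂, h1, h2, h3, h4⟩ := h hν hicc hy hV
  exact ⟨𝒰, κ₁, κ₂, inferInstance, inferInstance, Ω₁, Ω₂, m₁, m₂, q₁, q₂, HasLegFW.legR hC h1,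
    HasLegFW.legR hC h2, h3, h4⟩

end br

section conc

variable {n : Type} [Fintype n] [DecidableEq n] {k : Type} [NontriviallyNormedField k]
  [ProperSpace k] {σ : k →+* k} [Fact (Continuous σ)] {ε : k} {J : Matrix n n k} {N r : ℕ}
  {M V₁ V₂ : Type} [MeasurableSpace V₁] [MeasurableSpace V₂] [NormedAddCommGroup V₁]
  [NormedAddCommGroup V₂] [OpensMeasurableSpace V₁] [OpensMeasurableSpace V₂]
  [TopologicalSpace M] [CompactSpace M] [MulAction (FormGroup σ J) M]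
  [ContinuousConstSMul (FormGroup σ J) M] {L : Lt (FormGroup σ J) (SGr σ J 1) M V₁ V₂}
  {Rl : ∀ {K : Type} [NormedAddCommGroup K] [InnerProductSpace ℂ K],
      (C(SGr σ J 1, ℂ) →ₗ[ℂ] (K →L[ℂ] K)) → Prop}

/-- **(O-CL)**, with the predicate `Rl` for the letters of points. -/
theorem overStmt_ofR {E : Type} [Group E] [TopologicalSpace E] [IsTopologicalGroup E]
    [LocallyCompactSpace E] [SecondCountableTopology E] [T2Space E] {ι : FormGroup σ J →* E}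
    (e : n ≃ Fin (N + 1)) (hF : Frm σ ε J) (hW : WI σ J r) (hr : 2 ≤ r) (hG : Geo L)
    (hA : Adm L ι) (hZ : Sc e L) (hN : Nmc e L) (hAm : AmpR Rl) (hOne : OneStmtR Rl L)
    (hCls : ClsStmt e L) (hNA : NAMono L) (hEx : ExStmtSR Rl L ι) : OverStmt E := by
  haveI : NoncompactSpace E := nc_E hG hA
  intro Γ hΓ hicc ℋ _ _ _ V R₁ R₂ hy
  letI : MeasurableSpace E := borel _
  haveI : BorelSpace E := ⟨rfl⟩
  haveI hd : DiscreteTopology Γ := hΓ.disc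
  haveI hc : Countable Γ := H790.countable_of_discrete (E := E) Γ
  letI : MeasurableSpace (E ⧸ Γ) := borel _
  haveI : BorelSpace (E ⧸ Γ) := ⟨rfl⟩
  obtain ⟨ν, hP', hν⟩ := H515.IsLattice.exists_prob (Λ := Γ) ⟨hΓ.disc, hΓ.covol⟩
  obtain ⟨κ₁, _, ξ₁, hT₁, -⟩ := hy.t₁
  obtain ⟨I', hI, ⟨b⟩⟩ := H264.Amp.exists_basis (H264.Amp.pars_of_tri hT₁)
  have p2 := pic2_of hν hy hT₁
  have tv := tv_tri hν hT₁.adjV b hT₁
  obtain ⟨𝒰, κ₁, κ₂, _, _, Ω₁, Ω₂, m₁, m₂, q₁, q₂, l1, l2, i1, i2⟩ :=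
    hEx (Γ := Γ) hν hicc hy hT₁.adjV
  obtain ⟨Q₁, Q₂, h1, h2, h12⟩ := clegs_ofR e hF hW hr hG hA hZ hN hAm hOne hCls hNA p2 tv l1
    l2 i1 i2 (H99.HT.base l1).ph (H99.HT.base l2).ph (H99.HT.base l1).fin (H99.HT.base l2).fin
  exact H264.Amp.over_of_legs hν hT₁ (X := H34.Ind.Xset (H85.cdat ν hν) ℋ)
    (fun S hS => ⟨S, hS, rfl⟩) h1 h2 h12

end conc

end Vale.Agent.P092.CL.T
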